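import Vale.Agent.P073.GS580.Spec
import Vale.Agent.P073.AB.Tiles907
import Vale.Agent.P073.AB.Graph907

/-!
# P073, block SEC2: the edges of the net are in `Q1`, local finiteness (`specEdgeA : SpecEdgeA`)
-/

open Set Metric Topology MeasureTheory Filter

namespace P073.GS.G3a907

open Vale.Agent.P073.St (V)
open Vale.Agent.P073.SQ (ev)
open Vale.Agent.P073.AB
open Vale.Agent.P073.LOC (Q1 core mid part IsMid FineE NetE sqT plq)
open P073.Net (dyc dyo)

variable {v : V} {n m n₀ : ℕ}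

theorem isOpen_Q1 : IsOpen Q1 := by
  have : Q1 = ⋂ i : Fin 3, {x : V | 0 < x i ∧ x i < 1} := by
    ext x; simp [Q1]
  rw [this]
  refine isOpen_iInter_of_finite fun i => ?_
  exact (isOpen_lt continuous_const (continuous_apply i)).inter
    (isOpen_lt (continuous_apply i) continuous_const)

theorem isBounded_Q1 : Bornology.IsBounded Q1 := by
  refine (isBounded_closedBall (x := (0 : V)) (r := 1)).subset fun x hx => ?_
  rw [mem_closedBall, dist_zero_right]
  refine (pi_norm_le_iff_of_nonneg zero_le_one).2 fun i => ?_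
  rw [Real.norm_eq_abs, abs_le]
  constructor <;> linarith [(hx i).1, (hx i).2]

theorem nonempty_Q1 : Q1.Nonempty := ⟨fun _ => 1 / 2, fun i => by norm_num⟩

theorem isCompact_core (v : V) (n : ℕ) : IsCompact (core v n) := by
  have : core v n = Set.pi univ fun i : Fin 3 =>
      Icc (v i + 2 / 2 ^ n) (v i + (2 ^ n - 3) / 2 ^ n) := by
    ext x
    simp only [core, mem_ofPred_eq, Set.mem_pi, mem_univ, forall_true_left, mem_Icc]
  rw [this]
  exact isCompact_univ_pi fun i => isCompact_Icc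

theorem core_sub (horg : ∀ i, 0 ≤ v i ∧ v i < 1 / 2 ^ n) : core v n ⊆ Q1 := by
  intro x hx i
  obtain ⟨h1, h2⟩ := hx i
  obtain ⟨h3, h4⟩ := horg i
  have h0 : (0:ℝ) < 1 / 2 ^ n := by positivity
  have h5 : (2:ℝ) / 2 ^ n = 2 * (1 / 2 ^ n) := by ring
  have h6 : ((2:ℝ) ^ n - 3) / 2 ^ n = 1 - 3 * (1 / 2 ^ n) := by
    rw [sub_div, div_self (by positivity)]
    ring
  rw [h5] at h1
  rw [h6] at h2
  constructor <;> linarith

theorem finite_core (v : V) (n g : ℕ) :
    {e : Idx × Fin 3 | e.1.1 = g ∧ edge v e ⊆ core v n}.Finite := by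
  have hfin : (({g} : Set ℕ) ×ˢ (Set.pi univ fun _ : Fin 3 => (Icc 0 (2 ^ g) : Set ℤ))).Finite :=
    Set.Finite.prod (finite_singleton _) (Set.Finite.pi fun j => Set.finite_Icc _ _)
  refine (hfin.prod (finite_univ (α := Fin 3))).subset ?_
  rintro ⟨⟨g', z⟩, k⟩ ⟨h1, h2⟩
  have h1' : g' = g := h1
  subst h1'
  refine ⟨⟨rfl, fun j _ => ?_⟩, mem_univ _⟩
  have h3 : pt v g' z ∈ core v n := h2 (left_mem_segment ℝ _ _)
  obtain ⟨a1, a2⟩ := h3 j
  simp only [pt] at a1 a2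
  have h0 : (0:ℝ) < 2 ^ g' := by positivity
  have h4 : (0:ℝ) < 2 / 2 ^ n := by positivity
  have h6 : ((2:ℝ) ^ n - 3) / 2 ^ n ≤ 1 := by
    rw [div_le_one (by positivity)]; linarith
  have b1 : (0:ℝ) ≤ z j / 2 ^ g' := by linarith
  have b2 : (z j : ℝ) / 2 ^ g' ≤ 1 := by linarith
  rw [div_le_one h0] at b2
  have c1 : (0:ℝ) ≤ z j := by
    have := mul_nonneg b1 h0.le
    rwa [div_mul_cancel₀ _ h0.ne'] at this
  exact ⟨by exact_mod_cast c1, by exact_mod_cast b2⟩

end P073.GS.G3a907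

namespace P073.GS

open Vale.Agent.P073.St (V)
open Vale.Agent.P073.SQ (ev)
open Vale.Agent.P073.AB
open Vale.Agent.P073.LOC (Q1 core mid part IsMid FineE NetE sqT plq)
open P073.Net (dyc dyo)
open G3a907

/-- **(G3a)** -/
theorem specEdgeA : SpecEdgeA := by
  intro v n m n₀ H
  obtain ⟨-, hpart, hgen, -, -⟩ := specTiles Q1 n v isOpen_Q1 isBounded_Q1 nonempty_Q1
  have hcore := core_sub H.org
  refine ⟨?_, ?_, finite_core v n, isCompact_core v n, hcore⟩
  · rintro e (⟨q, hq, he⟩ | ⟨h1, h2⟩ | ⟨h1, -, h2, -⟩)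
    · refine ⟨(Gr.edge_subset_dyc he).trans (hpart.sub q hq), ?_⟩
      rw [he.1]
      exact hgen q hq
    · exact ⟨h2.trans hcore, by rw [h1]; have := H.hm; omega⟩
    · exact ⟨h2.trans hcore, by rw [h1]; have := H.hm; have := H.hn₀; omega⟩
  · intro K hK hKc
    have f1 := Gr.finite_edges hpart hK hKc
    refine ((f1.union (finite_core v n m)).union (finite_core v n n₀)).subset ?_
    rintro e ⟨(⟨q, hq, he⟩ | ⟨h1, h2⟩ | ⟨h1, -, h2, -⟩), hne⟩
    · exact Or.inl (Or.inl ⟨⟨q, hq, he⟩, hne⟩)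
    · exact Or.inl (Or.inr ⟨h1, h2⟩)
    · exact Or.inr ⟨h1, h2⟩

end P073.GS
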