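import Vale.Agent.P073.GS580.Spec2
import Vale.Agent.P073.GS580.G3a_907
import Vale.Agent.P073.Gauge.Of407b

/-!
# P073, block SEC2, `SpecGaugeSec2`: the hypotheses of the plates (helper407)
-/

open Set Metric Topology MeasureTheory Filter
open scoped ENNReal

namespace P073.GS

open Vale.Agent.P073.St (V Mat IsHomeo)
open Vale.Agent.P073.SQ (ev)
open Vale.Agent.P073.AB
open Vale.Agent.P073.LOC (Q1 core part NetE FineE IsMid sqT plq Choice2)
open P073.Gauge (gam)
open P073.Plate (PlateHyp pbox)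

namespace A2407

theorem isCompact_pbox (v : V) (s : Idx × Fin 3) (δ τ : ℝ) : IsCompact (pbox v s δ τ) := by
  have h : pbox v s δ τ = Set.pi univ (fun i => if i = s.2 then
      Icc (v s.2 + s.1.2 s.2 / 2 ^ s.1.1 - τ) (v s.2 + s.1.2 s.2 / 2 ^ s.1.1 + τ) else
      Icc (v i + s.1.2 i / 2 ^ s.1.1 + δ) (v i + (s.1.2 i + 1) / 2 ^ s.1.1 - δ)) := by
    ext x
    simp only [pbox, Set.mem_ofPred_eq, Set.mem_pi, mem_univ, forall_true_left]
    constructor
    · rintro ⟨h1, h2⟩ i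
      rw [abs_le] at h1
      split_ifs with hi
      · rw [hi]; constructor <;> linarith [h1.1, h1.2]
      · exact h2 i hi
    · intro h1
      constructor
      · have := h1 s.2
        rw [if_pos rfl] at this
        rw [abs_le]
        constructor <;> linarith [this.1, this.2]
      · intro i hi
        have := h1 i
        rw [if_neg hi] at this
        exact this
  rw [h]
  refine isCompact_univ_pi fun i => ?_
  split_ifs
  · exact isCompact_Icc
  · exact isCompact_Icc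

theorem continuous_aff {A : V → V} {L : V →L[ℝ] V} (aff : ∀ x y, A y - A x = L (y - x)) :
    Continuous A := by
  have : A = fun y => L y + A 0 := by
    funext y
    have := aff 0 y
    rw [sub_zero] at this
    rw [← this]
    abel
  rw [this]
  fun_prop

/-- an edge in a horizontal square is horizontal, at the height of the square -/
theorem edge_in_plq {v : V} {e : Idx × Fin 3} {n₂ : ℕ} {z : Fin 3 → ℤ}
    (h : edge v e ⊆ squ v (plq n₂ z)) : e.2 ≠ 2 ∧ pt v e.1.1 e.1.2 2 = pt v n₂ z 2 := by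
  have h1 := h (P073.Gauge.C110.pt_mem_edge v e)
  have h2 := h (P073.Gauge.C110.pt_mem_edge' v e)
  have h3 : pt v e.1.1 e.1.2 2 = v 2 + z 2 / 2 ^ n₂ := h1.1
  have h4 : (pt v e.1.1 e.1.2 + (1 / 2 ^ e.1.1 : ℝ) • ev e.2) 2 = v 2 + z 2 / 2 ^ n₂ := h2.1
  refine ⟨fun hk => ?_, h3⟩
  rw [Pi.add_apply, h3, Pi.smul_apply, P073.Gauge.C110.ev_apply, hk, if_pos rfl, smul_eq_mul,
    mul_one] at h4
  have : (0:ℝ) < 1 / 2 ^ e.1.1 := by positivity
  linarith

end A2407

open A2407 in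
theorem specPlateHyp_of (hA : SpecEdgeA) (hE : SpecEdgeB) (hL : SpecLone) : SpecPlateHyp := by
  intro p θ M κ k₁ k₀ n m ε C L Λ f F hp hθ hM hκ hn hm hf c
  have hp0 : 0 ≤ p := by linarith
  have hnum : Num c.v n m c.n₀ := ⟨c.org, hn, hm, by have := c.le; have := c.eqn; omega⟩
  obtain ⟨hA1, -, -, -, -⟩ := hA c.v n m c.n₀ hnum
  obtain ⟨hE1, -⟩ := hE c.v n m c.n₀ hnum
  have hfc : ContinuousOn f Q1 := by
    obtain ⟨g, -, h, -⟩ := hf
    exact h
  have htol : ∀ e : Idx × Fin 3, ∃ r > 0, NetE c.v n m c.n₀ e → ∀ z ∈ c.J,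
      ¬ edge c.v e ⊆ squ c.v (plq c.n₂ z) → ∀ x ∈ edge c.v e, ∀ y : V, ‖y - f x‖ ≤ r →
      y ∉ c.A z '' pbox c.v (plq c.n₂ z) (1 / 2 ^ c.n₀) (1 / 2 ^ c.n₀) := by
    intro e
    by_cases he : NetE c.v n m c.n₀ e
    · have h1 : ∀ z : Fin 3 → ℤ, ∃ r > 0, z ∈ c.J → ¬ edge c.v e ⊆ squ c.v (plq c.n₂ z) →
          ∀ x ∈ edge c.v e, ∀ y : V, ‖y - f x‖ ≤ r →
          y ∉ c.A z '' pbox c.v (plq c.n₂ z) (1 / 2 ^ c.n₀) (1 / 2 ^ c.n₀) := by
        intro z
        by_cases hz : z ∈ c.J ∧ ¬ edge c.v e ⊆ squ c.v (plq c.n₂ z)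
        · have h2 : Disjoint (f '' edge c.v e)
              (c.A z '' pbox c.v (plq c.n₂ z) (1 / 2 ^ c.n₀) (1 / 2 ^ c.n₀)) := by
            rw [Set.disjoint_left]
            rintro _ ⟨x, hx, rfl⟩
            exact c.foreign z hz.1 e he hz.2 x hx
          have h3 : IsCompact (f '' edge c.v e) :=
            (Gr.isCompact_edge c.v e).image_of_continuousOn (hfc.mono (hA1 e he).1)
          have h4 : IsCompact (c.A z '' pbox c.v (plq c.n₂ z) (1 / 2 ^ c.n₀) (1 / 2 ^ c.n₀)) :=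
            (isCompact_pbox _ _ _ _).image (continuous_aff (c.aff z))
          obtain ⟨r, hr, h5⟩ := h2.exists_cthickenings h3 h4.isClosed
          refine ⟨r, hr, fun _ _ x hx y hy hy' => ?_⟩
          refine Set.disjoint_left.1 h5 ?_ (self_subset_cthickening _ hy')
          exact mem_cthickening_of_dist_le y (f x) r _ (mem_image_of_mem f hx)
            (by rwa [dist_eq_norm])
        · exact ⟨1, one_pos, fun a b => absurd ⟨a, b⟩ hz⟩
      choose r hr hr' using h1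
      obtain ⟨ε', h2, h3⟩ := P073.Gauge.O407.exists_pos_le c.J.finite_toSet r (fun z _ => hr z)
      refine ⟨ε', h2, fun _ z hz hne x hx y hy => ?_⟩
      exact hr' z hz hne x hx y (hy.trans (h3 z hz))
    · exact ⟨1, one_pos, fun h => absurd h he⟩
  choose r hr0 hr using htol
  have hK : (0:ℝ) < κ / 2 ^ (p + 1) := by positivity
  refine ⟨fun e => min (κ / 2 ^ (p + 1) * (1 / 2 ^ e.1.1) ^ p) (r e),
    fun e => lt_min (by positivity) (hr0 e), ?_⟩
  intro h hh z hz
  obtain ⟨w, hw⟩ := c.lone z hz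
  obtain ⟨hL1, hL2, -⟩ := hL c.v n m c.n₀ c.n₂ z w hnum c.le (by have := c.eqn; omega)
    (c.sub z hz) (c.mid z hz) hw
  refine ⟨fun x y => c.aff z x y, c.below z hz, c.above z hz, ?_, ?_, ?_, ?_, ?_⟩
  · exact ⟨((m, w), 2), hL1, rfl, hw⟩
  · intro s' hs' hk hne
    refine hL2 s' ?_ hk hne
    rw [hs', c.eqn]
    rfl
  · intro e he hsub
    have hgen : (plq c.n₂ z).1.1 + k₁ + k₀ = c.n₀ := c.eqn.symm
    rw [hgen] at he ⊢
    obtain ⟨hk, hht⟩ := edge_in_plq hsub
    have hfe : NetE c.v n m c.n₀ e := by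
      refine Or.inr (Or.inr ⟨he, hk, hsub.trans (c.sub z hz), ?_⟩)
      rw [hht]
      exact c.mid z hz
    obtain ⟨h1, h2⟩ := c.own z hz e he hk hsub
    have hlen1 : (1 / 2 ^ e.1.1 : ℝ) ≤ 1 := by
      rw [div_le_one (by positivity)]
      exact one_le_pow₀ (by norm_num)
    have hlen0 : (0:ℝ) < 1 / 2 ^ e.1.1 := by positivity
    have hpow : (1 / 2 ^ e.1.1 : ℝ) ^ p ≤ 1 / 2 ^ e.1.1 := by
      calc (1 / 2 ^ e.1.1 : ℝ) ^ p ≤ (1 / 2 ^ e.1.1 : ℝ) ^ (1:ℝ) :=
            Real.rpow_le_rpow_of_exponent_ge hlen0 hlen1 hp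
        _ = _ := Real.rpow_one _
    constructor
    · intro x hx
      have h3 := (hh.close e hfe x hx).trans (min_le_left _ _)
      have h4 := h1 x hx
      rw [← he] at h4 ⊢
      have h5 : (2:ℝ) ≤ 2 ^ (p + 1) := by
        calc (2:ℝ) = 2 ^ (1:ℝ) := (Real.rpow_one 2).symm
          _ ≤ 2 ^ (p + 1) := Real.rpow_le_rpow_of_exponent_le (by norm_num) (by linarith)
      have h6 : κ / 2 ^ (p + 1) ≤ κ / 2 := div_le_div_of_nonneg_left hκ.le (by norm_num) h5
      calc ‖h x - c.A z x‖ ≤ ‖h x - f x‖ + ‖f x - c.A z x‖ :=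
            norm_sub_le_norm_sub_add_norm_sub _ _ _
        _ ≤ κ / 2 ^ (p + 1) * (1 / 2 ^ e.1.1) ^ p + κ / 2 ^ (p + 1) / 2 ^ e.1.1 :=
            add_le_add h3 h4
        _ ≤ κ / 2 * (1 / 2 ^ e.1.1) + κ / 2 / 2 ^ e.1.1 := by
            apply add_le_add
            · exact mul_le_mul h6 hpow (by positivity) (by positivity)
            · exact div_le_div_of_nonneg_right h6 (by positivity)
        _ = κ / 2 ^ e.1.1 := by ring
    · rw [← he]
      refine own_energy hp0 hκ.le (hh.int e hfe) (hh.en e hfe) (min_le_left _ _) ?_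
      rw [he]
      exact h2
  · rintro e ⟨s', hs', hes⟩ hne x hx
    have hgen : (plq c.n₂ z).1.1 + k₁ + k₀ = c.n₀ := c.eqn.symm
    rw [hgen]
    have hfe := hE1 e s' hs' hes
    exact hr e hfe z hz hne x hx _ ((hh.close e hfe x hx).trans (min_le_right _ _))
  · have hgen : (plq c.n₂ z).1.1 + k₁ + k₀ = c.n₀ := c.eqn.symm
    rw [hgen]
    exact c.inside z hz

theorem specPlateHyp (hE : SpecEdgeB) (hL : SpecLone) : SpecPlateHyp :=
  specPlateHyp_of specEdgeA hE hL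

end P073.GS
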