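import Vale.Agent.P073.GS580.Spec2
import Vale.Agent.P073.GS580.G3a_907
import Vale.Agent.P073.GS580.A2_407
import Vale.Agent.P073.Gauge.Of407d
import Vale.Agent.P073.SMF.Spec

/-!
# P073, block SEC2, `SpecGaugeSec2`: the smoothing (helper407)

* `HOut`: the conical homeomorphism after GB in the plates.
* `SpecH` : existence of `h'` with `HOut` (helper580).
* `specGaugeSec2_of`: `SpecH` and `SpecSmooth` imply `SpecGaugeSec2`.
-/

open Set Metric Topology MeasureTheory Filter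
open scoped ENNReal

namespace P073.GS

open Vale.Agent.P073.St (V Mat IsHomeo IsDiffeo IsBoundedDomain IsSobolev)
open Vale.Agent.P073.SQ (ev)
open Vale.Agent.P073.AB
open Vale.Agent.P073.LOC (Q1 core part NetE FineE IsMid sqT plq Choice2 BdClose SpecGaugeSec2)
open P073.Gauge (gam dvar)
open P073.Plate (PlateOut pbox prel)

/-- the conical homeomorphism `h'` after GB in the plates, with accuracy `δ'` on the net -/
structure HOut {p ε θ M κ C₀ : ℝ} {k₁ k₀ n m : ℕ} {L : V →L[ℝ] V} {Λ : Set V} {f : V → V}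
    {F : V → Mat} (c : Choice2 p ε θ M κ C₀ k₁ k₀ n m L Λ f F) (C : ℝ) (δ' : Idx × Fin 3 → ℝ)
    (h' : V → V) : Prop where
  en : ∀ e, NetE c.v n m c.n₀ e →
    (∀ z ∈ c.J, Disjoint (edge c.v e) (prel c.v (plq c.n₂ z) (1 / 2 ^ (c.n₂ + k₁)))) →
    ∫⁻ t in Icc (0:ℝ) 1, ENNReal.ofReal
      (‖deriv (fun s => h' (gam c.v e s)) t - De c.v F e t‖ ^ p) ≤ ENNReal.ofReal (δ' e)
  plate : ∀ z ∈ c.J, PlateOut p C k₁ c.v (plq c.n₂ z) (c.A z) h'
  bd : BdClose Q1 f h'

/-- **(A)** NET + GB: existence of `h'` -/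
def SpecH : Prop :=
  ∀ (p θ M : ℝ), 1 ≤ p → p < 2 → 0 < θ → 0 < M → ∃ C > 0, ∀ k₁ : ℕ, 3 ≤ k₁ → ∃ k₀ ≥ 1,
    ∃ κ > 0, ∀ (n m : ℕ) (ε C₀ : ℝ) (L : V →L[ℝ] V) (Λ : Set V) (f : V → V) (F : V → Mat),
    3 ≤ n → n + 2 ≤ m → IsBoundedDomain Λ → IsHomeo Q1 Λ f → ContinuousOn f (closure Q1) →
    IsSobolev p Q1 f F → ∀ c : Choice2 p ε θ M κ C₀ k₁ k₀ n m L Λ f F,
    ∀ δ' : Idx × Fin 3 → ℝ, (∀ e, 0 < δ' e) → ∃ h' : ConHomeo Q1 Λ, HOut c C δ' h'.toFun

namespace B407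

theorem convex_core (v : V) (n : ℕ) : Convex ℝ (core v n) := by
  intro x hx y hy a b ha hb hab i
  exact convex_Icc _ _ (hx i) (hy i) ha hb hab

/-- the domain of integration over a plate -/
def QP (v : V) (n n₂ k₁ : ℕ) (z : Fin 3 → ℤ) : Set V :=
  {x | x ∈ core v n ∧ Function.update x 2 (pt v n₂ z 2) ∈
    pbox v (plq n₂ z) (2 / 2 ^ (n₂ + k₁)) 0}

theorem convex_QP (v : V) (n n₂ k₁ : ℕ) (z : Fin 3 → ℤ) : Convex ℝ (QP v n n₂ k₁ z) := by
  intro x hx y hy a b ha hb hab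
  refine ⟨convex_core v n hx.1 hy.1 ha hb hab, ?_, fun i hi => ?_⟩
  · have h := hx.2.1
    simp only [plq, Function.update_self] at h ⊢
    exact h
  · have hi' : i ≠ 2 := hi
    have h1 := hx.2.2 i hi
    have h2 := hy.2.2 i hi
    rw [Function.update_of_ne hi'] at h1 h2 ⊢
    exact convex_Icc _ _ h1 h2 ha hb hab

theorem isCompact_QP {v : V} {n : ℕ} (hc : IsCompact (core v n)) (n₂ k₁ : ℕ) (z : Fin 3 → ℤ) :
    IsCompact (QP v n n₂ k₁ z) := by
  have h1 : IsClosed {x : V | Function.update x 2 (pt v n₂ z 2) ∈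
      pbox v (plq n₂ z) (2 / 2 ^ (n₂ + k₁)) 0} :=
    (A2407.isCompact_pbox _ _ _ _).isClosed.preimage (by fun_prop)
  exact hc.inter_right h1

theorem pbox_sub_squ {v : V} {n₂ : ℕ} {z : Fin 3 → ℤ} {δ : ℝ} (hδ : 0 ≤ δ) :
    pbox v (plq n₂ z) δ 0 ⊆ squ v (plq n₂ z) := by
  intro x hx
  refine ⟨?_, fun i hi => ?_⟩
  · have := abs_nonpos_iff.1 hx.1
    linarith
  · have := hx.2 i hi
    constructor <;> linarith [this.1, this.2]

/-- the tangential derivatives on a plate -/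
theorem lineDeriv_plate {v : V} {n n₂ k₁ : ℕ} {z : Fin 3 → ℤ} {h A : V → V} {L : V →L[ℝ] V}
    (aff : ∀ x y, A y - A x = L (y - x))
    (hA : ∀ x ∈ pbox v (plq n₂ z) (2 / 2 ^ (n₂ + k₁)) 0, h x = A x) {x : V}
    (hx : x ∈ interior (QP v n n₂ k₁ z)) {j : Fin 3} (hj : j ≠ 2) :
    lineDeriv ℝ h (Function.update x 2 (pt v n₂ z 2)) (ev j) = L (ev j) := by
  set u : V := Function.update x 2 (pt v n₂ z 2) with hu
  have h1 : ∀ᶠ t : ℝ in 𝓝 0, u + t • ev j ∈ pbox v (plq n₂ z) (2 / 2 ^ (n₂ + k₁)) 0 := by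
    have h2 : Tendsto (fun t : ℝ => x + t • ev j) (𝓝 0) (𝓝 (x + (0:ℝ) • ev j)) := by
      apply Continuous.tendsto
      fun_prop
    rw [zero_smul, add_zero] at h2
    filter_upwards [h2 (isOpen_interior.mem_nhds hx)] with t ht
    have h3 := (interior_subset ht).2
    have h4 : Function.update (x + t • ev j) 2 (pt v n₂ z 2) = u + t • ev j := by
      funext i
      by_cases hi : i = 2
      · subst hi
        rw [Function.update_self, Pi.add_apply, hu, Function.update_self, Pi.smul_apply,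
          P073.Gauge.C110.ev_apply, if_neg (Ne.symm hj), smul_zero, add_zero]
      · rw [Function.update_of_ne hi, Pi.add_apply, Pi.add_apply, hu, Function.update_of_ne hi]
    rwa [h4] at h3
  have h6 : HasDerivAt (fun t : ℝ => h (u + t • ev j)) (L (ev j)) 0 := by
    have h7 : HasDerivAt (fun t : ℝ => A u + t • L (ev j)) (L (ev j)) 0 := by
      have := ((hasDerivAt_id (0:ℝ)).smul_const (L (ev j))).const_add (A u)
      simpa using this
    apply h7.congr_of_eventuallyEq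
    filter_upwards [h1] with t ht
    rw [hA _ ht]
    have h8 := aff u (u + t • ev j)
    rw [add_sub_cancel_left, map_smul] at h8
    rw [← h8]
    abel
  unfold lineDeriv
  exact h6.deriv

theorem isOpen_Q1 : IsOpen Q1 := by
  have : Q1 = Set.pi univ (fun _ : Fin 3 => Ioo (0:ℝ) 1) := by
    ext x; simp only [Q1, Set.mem_ofPred_eq, Set.mem_pi, mem_univ, forall_true_left, mem_Ioo]
  rw [this]
  exact isOpen_set_pi finite_univ fun _ _ => isOpen_Ioo

theorem closure_Q1_compact : IsCompact (Set.pi univ (fun _ : Fin 3 => Icc (0:ℝ) 1)) :=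
  isCompact_univ_pi fun _ => isCompact_Icc

theorem boundedDomain_Q1 : IsBoundedDomain Q1 := by
  refine ⟨isOpen_Q1, ?_, 2, fun x hx => ?_⟩
  · have h1 : Q1 = Set.pi univ (fun _ : Fin 3 => Ioo (0:ℝ) 1) := by
      ext x; simp only [Q1, Set.mem_ofPred_eq, Set.mem_pi, mem_univ, forall_true_left, mem_Ioo]
    refine ⟨⟨fun _ => 1 / 2, fun i => by norm_num⟩, ?_⟩
    rw [h1]
    exact (convex_pi fun i _ => convex_Ioo 0 1).isPreconnected
  · refine (P073.Net.euc_le x).trans ?_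
    have : ‖x‖ ≤ 1 := by
      rw [pi_norm_le_iff_of_nonneg zero_le_one]
      intro i
      rw [Real.norm_eq_abs, abs_le]
      constructor <;> linarith [(hx i).1, (hx i).2]
    linarith

theorem bdClose_of {f h G : V → V} (hb : BdClose Q1 f h)
    (hG : ∀ x ∈ Q1, ‖G x - h x‖ ≤ infDist x Q1ᶜ) : BdClose Q1 f G := by
  intro δ hδ
  obtain ⟨K, hK, hKc, hK'⟩ := hb (δ / 2) (half_pos hδ)
  set K₂ : Set V := {x | δ / 2 ≤ infDist x Q1ᶜ} with hK₂
  have h1 : IsClosed K₂ := isClosed_le continuous_const (continuous_infDist_pt _)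
  have h2 : K₂ ⊆ Q1 := by
    intro x hx
    by_contra hcon
    have : infDist x Q1ᶜ = 0 := infDist_zero_of_mem hcon
    have h3 : δ / 2 ≤ infDist x Q1ᶜ := hx
    linarith
  have h3 : IsCompact K₂ := by
    refine closure_Q1_compact.of_isClosed_subset h1 (h2.trans ?_)
    intro x hx i _
    exact ⟨(hx i).1.le, (hx i).2.le⟩
  refine ⟨K ∪ K₂, union_subset hK h2, hKc.union h3, ?_⟩
  rintro x ⟨hx, hx'⟩
  have h4 : x ∉ K := fun h => hx' (Or.inl h)
  have h5 : x ∉ K₂ := fun h => hx' (Or.inr h)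
  have h6 : infDist x Q1ᶜ < δ / 2 := not_le.1 h5
  calc ‖G x - f x‖ ≤ ‖G x - h x‖ + ‖h x - f x‖ := norm_sub_le_norm_sub_add_norm_sub _ _ _
    _ ≤ δ / 2 + δ / 2 := add_le_add ((hG x hx).trans h6.le) (hK' x ⟨hx, h4⟩)
    _ = δ := by ring

end B407

open B407 in
/-- **(B)** smoothing -/
theorem B407.specGaugeSec2_of (hH : SpecH) (hS : P073.SMF.SpecSmooth) : SpecGaugeSec2 := by
  intro p θ M hp hp2 hθ hM
  have hp0 : 0 ≤ p := by linarith
  obtain ⟨C, hC0, hC⟩ := hH p θ M hp hp2 hθ hM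
  refine ⟨2 ^ p * (C + 1), by positivity, fun k₁ hk₁ => ?_⟩
  obtain ⟨k₀, hk₀, κ, hκ, hh⟩ := hC k₁ hk₁
  refine ⟨k₀, hk₀, κ, hκ, ?_⟩
  intro n m ε C₀ L Λ f F hn hm hΛ hf hfc hFs c δ hδ δ₀ hδ₀
  have hnum : Num c.v n m c.n₀ := ⟨c.org, hn, hm, by have := c.le; have := c.eqn; omega⟩
  obtain ⟨hA1, hA2, hA3, hA4, hA5⟩ := specEdgeA c.v n m c.n₀ hnum
  have h2p : (0:ℝ) < 2 ^ p := by positivity
  set R : Idx × Fin 3 → ℝ := fun e => δ e * 2 ^ e.1.1 * (1 / 2 ^ e.1.1) ^ p / (2 * 2 ^ p) with hR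
  have hR0 : ∀ e, 0 < R e := fun e => by
    have := hδ e
    simp only [hR]
    positivity
  obtain ⟨h', hout⟩ := hh n m ε C₀ L Λ f F hn hm hΛ hf hfc hFs c R hR0
  -- segments
  set E : Set (Idx × Fin 3) := {e | NetE c.v n m c.n₀ e ∨
    (e.1.1 = c.n₂ + k₁ ∧ edge c.v e ⊆ core c.v n)} with hE
  have hEQ : ∀ e ∈ E, edge c.v e ⊆ Q1 := by
    rintro e (he | he)
    · exact (hA1 e he).1
    · exact he.2.trans hA5
  have hEfin : ∀ K ⊆ Q1, IsCompact K → {e : E | (edge c.v e.1 ∩ K).Nonempty}.Finite := by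
    intro K hK hKc
    refine Set.Finite.of_finite_image (f := fun e : E => e.1)
      (((hA2 K hK hKc).union (hA3 (c.n₂ + k₁))).subset ?_) Subtype.val_injective.injOn
    rintro _ ⟨⟨e, he⟩, hne, rfl⟩
    rcases he with he | he
    · exact Or.inl ⟨he, hne⟩
    · exact Or.inr he
  have hplate : ∀ z ∈ c.J, ∀ x ∈ QP c.v n c.n₂ k₁ z,
      Function.update x 2 (pt c.v c.n₂ z 2) ∈ Q1 := by
    intro z hz x hx
    exact hA5 (c.sub z hz (pbox_sub_squ (by positivity) hx.2))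
  have hinf : ∀ x ∈ Q1, 0 < infDist x Q1ᶜ := by
    intro x hx
    have h1 : IsClosed Q1ᶜ := isOpen_Q1.isClosed_compl
    have h2 : (Q1ᶜ).Nonempty := ⟨fun _ => 2, fun h => by have := (h 0).2; norm_num at this⟩
    exact (h1.notMem_iff_infDist_pos h2).1 (fun h => h hx)
  obtain ⟨G, hG1, -, hG2, hG3, hG4, -⟩ := hS p Q1 Λ h' (fun x => infDist x Q1ᶜ) 1 hp
    boundedDomain_Q1 hΛ (continuous_infDist_pt _).continuousOn hinf one_pos
    E inferInstance (fun e => pt c.v e.1.1.1 e.1.1.2)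
    (fun e => (1 / 2 ^ e.1.1.1 : ℝ) • ev e.1.2)
    (fun e => min (R e.1) ((1 / 2 ^ e.1.1.1) ^ p))
    (fun e => ev_smul_ne e.1)
    (fun e => hEQ e.1 e.2) hEfin
    (fun e => lt_min (hR0 e.1) (by positivity))
    c.J inferInstance (fun _ => 2) (fun z => pt c.v c.n₂ z.1 2)
    (fun z => QP c.v n c.n₂ k₁ z.1) (fun _ => δ₀ / 2)
    (fun z => isCompact_QP hA4 _ _ _)
    (fun z x hx => hplate z.1 z.2 x hx)
    (fun K _ _ => Set.toFinite _)
    (fun z => by positivity)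
  have hseg : ∀ e ∈ E, ∫⁻ t in Icc (0:ℝ) 1, ENNReal.ofReal
      (‖fderiv ℝ G (gam c.v e t) ((1 / 2 ^ e.1.1 : ℝ) • ev e.2) -
        deriv (fun s => h'.toFun (gam c.v e s)) t‖ ^ p) ≤
      ENNReal.ofReal (min (R e) ((1 / 2 ^ e.1.1) ^ p)) := fun e he => hG3 ⟨e, he⟩
  refine ⟨G, hG1, bdClose_of hout.bd hG2, ?_, ?_⟩
  · intro e he hdis
    refine net_energy (h := h'.toFun) (h' := h'.toFun) (c := R e)
      (c' := min (R e) ((1 / 2 ^ e.1.1) ^ p)) hp0 (hR0 e).le
      (le_min (hR0 e).le (by positivity)) (fun _ _ => rfl) (hout.en e he hdis)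
      (hseg e (Or.inl he)) ?_
    have h1 : min (R e) ((1 / 2 ^ e.1.1) ^ p) ≤ R e := min_le_left _ _
    calc 2 ^ p * (min (R e) ((1 / 2 ^ e.1.1) ^ p) + R e) ≤ 2 ^ p * (R e + R e) := by
          gcongr
      _ = δ e * 2 ^ e.1.1 * (1 / 2 ^ e.1.1) ^ p := by
          simp only [hR]
          field_simp
          ring
  · intro z hz
    constructor
    · have key : ∀ j ∈ Finset.univ.erase (2 : Fin 3),
          ∫⁻ x in QP c.v n c.n₂ k₁ z, ENNReal.ofReal
            (‖fderiv ℝ G (Function.update x 2 (pt c.v c.n₂ z 2)) (ev j) - c.B z (ev j)‖ ^ p) ≤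
          ENNReal.ofReal (δ₀ / 2) := by
        intro j hj
        have hj' : j ≠ 2 := (Finset.mem_erase.1 hj).1
        have h1 := hG4 ⟨z, hz⟩ j hj'
        refine (P073.Gauge.O407.lintegral_le_interior (convex_QP _ _ _ _ _) _).trans ?_
        refine le_trans (le_of_eq ?_) ((lintegral_mono_set interior_subset).trans h1)
        apply setLIntegral_congr_fun isOpen_interior.measurableSet
        intro x hx
        have h2 := lineDeriv_plate (fun x y => c.aff z x y) (hout.plate z hz).box hx hj'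
        have h5 : (Pi.single j 1 : V) = ev j := rfl
        simp only [h5, h2]
      refine (Finset.sum_le_sum key).trans ?_
      rw [Finset.sum_const, Finset.card_erase_of_mem (Finset.mem_univ _), Finset.card_univ,
        Fintype.card_fin, nsmul_eq_mul, show (((3 - 1 : ℕ)) : ℝ≥0∞) = ENNReal.ofReal 2 by norm_num,
        ← ENNReal.ofReal_mul (by norm_num)]
      apply ENNReal.ofReal_le_ofReal
      exact le_of_eq (by ring)
    · intro e he hsub hfr
      obtain ⟨-, h2⟩ := (hout.plate z hz).gap e he hsub hfr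
      have hcore : edge c.v e ⊆ core c.v n :=
        ((hsub.trans sdiff_subset).trans (pbox_sub_squ (by positivity))).trans (c.sub z hz)
      have heE : e ∈ E := Or.inr ⟨he, hcore⟩
      rw [← he]
      have h3 : (plq c.n₂ z).1.1 + k₁ = e.1.1 := he.symm
      rw [h3] at h2
      exact gap_energy hp0 (le_min (hR0 e).le (by positivity)) hC0.le h2 (hseg e heE)
        (min_le_right _ _)

end P073.GS
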