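import Vale.Agent.P073.GS580.Spec
import Vale.Agent.P073.LOC.Geo308d

/-!
# P073, block SEC2, `SpecPartSec` (helper308)
-/

open Set Metric Topology MeasureTheory Filter

namespace P073.GS

open Vale.Agent.P073.St (V)
open Vale.Agent.P073.LOC (Q1 core part)
open Vale.Agent.P073.AB

theorem part_eq_newI (v : V) (n m : ℕ) : part v n m = Vale.Agent.P073.LOC.newI v n m := by
  ext q
  exact Iff.rfl

/-- **(G1)** -/
theorem specPartSec : SpecPartSec := by
  intro v n m n₀ h
  rw [part_eq_newI]
  exact Vale.Agent.P073.LOC.G308.Dat.part ⟨h.org, h.hn, h.hm⟩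

end P073.GS
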