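import Vale.Agent.P073.GS580.Tools
import Vale.Agent.P073.GS580.G1_308
import Vale.Agent.P073.SMF.Spec

/-!
# P073, block SEC2: `SpecGaugeSec2` from NET with closeness, GB for the plates and SM
-/

open Set Metric Topology MeasureTheory Filter
open scoped ENNReal

namespace P073.GS

open Vale.Agent.P073.St (V Mat IsHomeo IsBoundedDomain euc IsDiffeo)
open Vale.Agent.P073.SQ (ev)
open Vale.Agent.P073.AB
open Vale.Agent.P073.LOC (Q1 core part NetE sqT plq Choice2 BdClose SpecGaugeSec2)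
open P073.Gauge (gam dvar)
open P073.Net (dyc dyo)
open P073.Plate (PlateHyp pbox prel SpecPlates SpecCxT)
open P073.GS.G3a907

theorem specGaugeSec2_of (hN : P073.Top.NetOutN) (hP : SpecPlates) (hS : P073.SMF.SpecSmooth)
    (hCx : SpecCxT) (g2 : SpecFaceSec) (g3 : SpecEdgeB) (g4 : SpecProtT) (g5 : SpecLone)
    (a2 : SpecPlateHyp) : SpecGaugeSec2 := by
  classical
  intro p θ M hp hp2 hθ hM
  have hp0 : 0 ≤ p := by linarith
  obtain ⟨C', hC'0, hC'⟩ := hP p θ M hp hθ hM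
  refine ⟨2 ^ p * (C' + 1), by positivity, fun k₁ hk₁ => ?_⟩
  obtain ⟨K₀, hK₀⟩ := hC' k₁ hk₁
  obtain ⟨κ', hκ'0, hplates⟩ := hK₀ (max K₀ 1) (le_max_left _ _)
  refine ⟨max K₀ 1, le_max_right _ _, κ' / 2 ^ (p + 1), by positivity, ?_⟩
  intro n m ε C L Λ f F hn hm hΛ hf _ _ c δ hδ δ₀ hδ₀
  -- numbers and geometry
  have hnum : Num c.v n m c.n₀ := ⟨c.org, hn, hm, by have := c.eqn; have := c.le; omega⟩
  have hI : Part Q1 c.v (part c.v n m) := specPartSec c.v n m c.n₀ hnum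
  have hT := g2 c.v n m c.n₀ hnum
  obtain ⟨hNQ, hNfin, hcfin, hcc, hcQ⟩ := specEdgeA c.v n m c.n₀ hnum
  obtain ⟨-, hcov⟩ := g3 c.v n m c.n₀ hnum
  obtain ⟨D⟩ := hCx Q1 c.v (part c.v n m) (sqT c.v n m c.n₀) isOpen_Q1 hI hT
  -- tolerances
  obtain ⟨τ, hτ0, hτ⟩ := a2 p θ M κ' k₁ (max K₀ 1) n m ε C L Λ f F hp hθ hM hκ'0 hn hm hf c
  set ε₁ : Idx × Fin 3 → ℝ := fun e =>
    δ e * 2 ^ e.1.1 * (1 / 2 ^ e.1.1) ^ p / (2 * 2 ^ p) with hε₁
  have hε₁0 : ∀ e, 0 < ε₁ e := fun e => by have := hδ e; positivity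
  -- NET
  obtain ⟨h, hhσ, hhE⟩ := exists_net hN hp hp2.le (v := c.v) (F := F)
    (N := {e | NetE c.v n m c.n₀ e}) isOpen_Q1 isBoundedDomain_Q1.2.1 hΛ.1 hf c.rat
    (fun e he => (hNQ e he).1) hNfin (fun e he => c.fin e (hNQ e he).1 (hNQ e he).2)
    (ε := fun e => min (τ e) (ε₁ e)) (fun e => lt_min (hτ0 e) (hε₁0 e))
    (σ := fun x => infDist x Q1ᶜ) (continuous_infDist_pt _).continuousOn
    (fun x hx => infDist_pos hx)
  have hOK : NetOK p c.v f F {e | NetE c.v n m c.n₀ e} τ h.toFun :=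
    ⟨fun e he x hx => ((hhE e he).1 x hx).trans (min_le_left _ _), fun e he => (hhE e he).2.1,
      fun e he => (hhE e he).2.2.trans (ENNReal.ofReal_le_ofReal (min_le_left _ _))⟩
  have hhyp := hτ h.toFun hOK
  -- the protected set
  set pb : (Fin 3 → ℤ) → Set V := fun z =>
    c.A z '' pbox c.v (plq c.n₂ z) (1 / 2 ^ c.n₀) (1 / 2 ^ c.n₀) with hpb
  have hpbc : ∀ z, IsCompact (pb z) := fun z =>
    (isCompact_pbox _ _ _ _).image (continuous_aff (c.aff z))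
  set K1 : Set V := core c.v n ∪ ⋃ z ∈ c.J, h.invFun '' pb z with hK1
  have hK1c : IsCompact K1 := by
    refine hcc.union (c.J.finite_toSet.isCompact_biUnion fun z hz => ?_)
    exact (hpbc z).image_of_continuousOn (h.cont_inv.mono (c.inside z hz))
  have hK1Q : K1 ⊆ Q1 := by
    refine union_subset hcQ (iUnion₂_subset fun z hz => ?_)
    exact (h.mapsTo_inv.mono_left (c.inside z hz)).image_subset
  obtain ⟨K2, hK2Q, hK2c, hK2⟩ := exists_compact hI hK1Q hK1c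
  set Z : Set V := ⋃ q ∈ awayI c.v (part c.v n m) K1, dyc c.v q.1 q.2 with hZ
  have hZQ : Z ⊆ Q1 := iUnion₂_subset fun q hq => hI.sub q hq.1
  have hZP := g4 Q1 c.v (part c.v n m) (sqT c.v n m c.n₀) isOpen_Q1 hI hT D
    (awayI c.v (part c.v n m) K1) (fun q hq => hq.1)
  -- the plates
  have hPmem : ∀ s ∈ c.J.image (plq c.n₂), ∃ z ∈ c.J, s = plq c.n₂ z := by
    intro s hs
    obtain ⟨z, hz, rfl⟩ := Finset.mem_image.1 hs
    exact ⟨z, hz, rfl⟩
  have hn₀ : ∀ z : Fin 3 → ℤ, (plq c.n₂ z).1.1 + k₁ + max K₀ 1 = c.n₀ := fun z => c.eqn.symm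
  obtain ⟨h', hout, hoff, hZe⟩ := hplates Q1 Λ c.v (part c.v n m) (sqT c.v n m c.n₀) D
    (c.J.image (plq c.n₂)) (fun s => c.A s.1.2) (fun s => c.B s.1.2) h isOpen_Q1 hΛ.1 hI hT
    (by
      intro s hs
      obtain ⟨z, hz, rfl⟩ := hPmem s hs
      exact hhyp z hz)
    (by
      intro s hs s' hs' hne
      obtain ⟨z, hz, rfl⟩ := hPmem s hs
      obtain ⟨z', hz', rfl⟩ := hPmem s' hs'
      obtain ⟨w, hw⟩ := c.lone z hz
      have hne' : z ≠ z' := fun h => hne (by rw [h])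
      exact (g5 c.v n m c.n₀ c.n₂ z w hnum c.le (by have := c.eqn; omega) (c.sub z hz)
        (c.mid z hz) hw).2.2 z' (c.sub z' hz') (c.mid z' hz') hne')
    (by
      intro s hs s' hs' hne
      obtain ⟨z, hz, rfl⟩ := hPmem s hs
      obtain ⟨z', hz', rfl⟩ := hPmem s' hs'
      rw [hn₀ z, hn₀ z']
      exact c.disj z hz z' hz' (fun h => hne (by rw [h])))
    Z hZP
    (by
      intro s hs
      obtain ⟨z, hz, rfl⟩ := hPmem s hs
      rw [disjoint_left]
      intro x hx hx'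
      exact away_notMem hx (Or.inl (c.sub z hz hx')))
    (by
      intro s hs x hx
      obtain ⟨z, hz, rfl⟩ := hPmem s hs
      rw [hn₀ z]
      intro hcon
      refine away_notMem hx (Or.inr (mem_iUnion₂.2 ⟨z, hz, h.toFun x, hcon, ?_⟩))
      exact h.left_inv (hZQ hx))
  -- smoothing
  set g := c.n₂ + k₁ with hg
  set E : Set (Idx × Fin 3) := {e | NetE c.v n m c.n₀ e ∨ (e.1.1 = g ∧ edge c.v e ⊆ core c.v n)}
    with hE
  have hEQ : ∀ e ∈ E, edge c.v e ⊆ Q1 := by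
    rintro e (he | ⟨-, he⟩)
    · exact (hNQ e he).1
    · exact he.trans hcQ
  have hupd : ∀ z ∈ c.J, ∀ x ∈ flat c.v n (plq c.n₂ z) (pt c.v c.n₂ z 2) (2 / 2 ^ g),
      Function.update x 2 (pt c.v c.n₂ z 2) ∈ pbox c.v (plq c.n₂ z) (2 / 2 ^ g) 0 :=
    fun z _ x hx => hx.2
  have hpQ : ∀ z ∈ c.J, ∀ δ : ℝ, 0 ≤ δ → pbox c.v (plq c.n₂ z) δ 0 ⊆ core c.v n :=
    fun z hz δ hδ => (P073.Plate.H107.pbox_subset_squ _ _ hδ).trans (c.sub z hz)
  obtain ⟨G, hG1, -, hG2, hG3, hG4, -⟩ := hS p Q1 Λ h' (fun x => infDist x Q1ᶜ) 1 hp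
    isBoundedDomain_Q1 hΛ (continuous_infDist_pt _).continuousOn (fun x hx => infDist_pos hx)
    one_pos E inferInstance (fun e => pt c.v e.1.1.1 e.1.1.2)
    (fun e => (1 / 2 ^ e.1.1.1 : ℝ) • ev e.1.2)
    (fun e => min (ε₁ e.1) ((1 / 2 ^ e.1.1.1) ^ p)) (fun e => ev_smul_ne e.1)
    (fun e => hEQ e.1 e.2)
    (by
      intro K hK hKc
      refine (((hNfin K hK hKc).union (hcfin g)).preimage (f := ((↑) : E → Idx × Fin 3))
        Subtype.val_injective.injOn).subset ?_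
      intro e he
      rcases e.2 with h1 | h1
      · exact Or.inl ⟨h1, he⟩
      · exact Or.inr h1)
    (fun e => lt_min (hε₁0 e.1) (by positivity))
    {z // z ∈ c.J} inferInstance (fun _ => 2) (fun z => pt c.v c.n₂ z.1 2)
    (fun z => flat c.v n (plq c.n₂ z.1) (pt c.v c.n₂ z.1 2) (2 / 2 ^ g)) (fun _ => δ₀ / 2)
    (fun z => isCompact_flat _ _ _ _ _)
    (fun z x hx => hcQ (hpQ z.1 z.2 _ (by positivity) (hupd z.1 z.2 x hx)))
    (fun K _ _ => Set.toFinite _) (fun z => half_pos hδ₀)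
  refine ⟨G, hG1, ?_, ?_, ?_⟩
  · -- boundary values
    refine bdClose_of hK2Q hK2c fun x hx => ?_
    have h1 := hG2 x hx.1
    have h2 : h'.toFun x = h.toFun x := hZe (hK2 x hx)
    have h3 := hhσ x hx.1
    rw [h2] at h1
    calc ‖G x - f x‖ ≤ ‖G x - h.toFun x‖ + ‖h.toFun x - f x‖ :=
          norm_sub_le_norm_sub_add_norm_sub _ _ _
      _ ≤ infDist x Q1ᶜ + infDist x Q1ᶜ := add_le_add h1 h3
      _ = 2 * infDist x Q1ᶜ := by ring
  · -- edges of the net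
    intro e he hdis
    have heq : ∀ x ∈ edge c.v e, h'.toFun x = h.toFun x := by
      intro x hx
      obtain ⟨e', s, hs, hes, hsub, hx'⟩ := hcov e he x hx
      refine hoff e' ⟨s, hs, hes⟩ (fun s' hs' => ?_) x hx'
      obtain ⟨z, hz, rfl⟩ := hPmem s' hs'
      exact (hdis z hz).mono_left hsub
    have h1 := hG3 ⟨e, Or.inl he⟩
    have h2 := (hhE e he).2.2.trans (ENNReal.ofReal_le_ofReal (min_le_right (τ e) (ε₁ e)))
    refine net_energy hp0 (hε₁0 e).le (hε₁0 e).le heq h2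
      (le_trans h1 (ENNReal.ofReal_le_ofReal (min_le_left _ _))) (le_of_eq ?_)
    have h7 : (2:ℝ) ^ p ≠ 0 := (Real.rpow_pos_of_pos (by norm_num) p).ne'
    simp only [hε₁]
    field_simp
    ring
  · intro z hz
    have hmem : plq c.n₂ z ∈ c.J.image (plq c.n₂) := Finset.mem_image_of_mem _ hz
    have hz' := hout _ hmem
    refine ⟨?_, ?_⟩
    · -- flat pieces
      have key : ∀ j ∈ Finset.univ.erase (2 : Fin 3),
          ∫⁻ x in flat c.v n (plq c.n₂ z) (pt c.v c.n₂ z 2) (2 / 2 ^ g), ENNReal.ofReal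
            (‖fderiv ℝ G (Function.update x 2 (pt c.v c.n₂ z 2)) (ev j) - c.B z (ev j)‖ ^ p) ≤
          ENNReal.ofReal (δ₀ / 2) := by
        intro j hj
        have hj' : j ≠ 2 := (Finset.mem_erase.1 hj).1
        exact flat_energy (convex_flat c.v n z c.n₂ _) (c.aff z) hz'.box (hupd z hz) hj'
          (hG4 ⟨z, hz⟩ j hj')
      refine (Finset.sum_le_sum key).trans (le_of_eq ?_)
      rw [Finset.sum_const, Finset.card_erase_of_mem (Finset.mem_univ _), Finset.card_univ,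
        Fintype.card_fin, nsmul_eq_mul,
        show (((3 - 1 : ℕ)) : ℝ≥0∞) = ENNReal.ofReal 2 by norm_num,
        ← ENNReal.ofReal_mul (by norm_num)]
      congr 1
      ring
    · -- edges of the gap
      intro e he hsub hnot
      have hec : edge c.v e ⊆ core c.v n :=
        (hsub.trans sdiff_subset).trans (hpQ z hz _ (by positivity))
      have h1 := hG3 ⟨e, Or.inr ⟨he, hec⟩⟩
      obtain ⟨-, h2⟩ := hz'.gap e he hsub hnot
      have h3 : (plq c.n₂ z).1.1 + k₁ = e.1.1 := he.symm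
      rw [h3] at h2
      have h4 := gap_energy (G := G) hp0 (c := (1 / 2 ^ e.1.1) ^ p) (by positivity) hC'0.le h2
        (le_trans h1 (ENNReal.ofReal_le_ofReal (min_le_right _ _))) le_rfl
      rwa [he] at h4

end P073.GS
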