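import Vale.Agent.P073.LOC.Sec2
import Vale.Agent.P073.H894.NetFamN
import Vale.Agent.P073.PK.Sob560c

/-!
# P073, block SEC2, `SpecGaugeSec2`: energies on dyadic edges
-/

open Set Metric Topology MeasureTheory Filter
open scoped ENNReal

namespace P073.GS

open Vale.Agent.P073.St (V Mat euc)
open Vale.Agent.P073.SQ (ev)
open Vale.Agent.P073.AB
open Vale.Agent.P073.HB (GoodSeg)
open P073.Gauge (gam dvar)
open P073.Net (norm_le_euc)

/-! ## sums -/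

theorem rpow_tri {p : ℝ} (hp : 0 ≤ p) (a b c : V) :
    ‖a - c‖ ^ p ≤ 2 ^ p * (‖a - b‖ ^ p + ‖b - c‖ ^ p) := by
  have h1 : ‖a - c‖ ≤ ‖a - b‖ + ‖b - c‖ := norm_sub_le_norm_sub_add_norm_sub a b c
  have h2 : ‖a - c‖ ≤ 2 * max ‖a - b‖ ‖b - c‖ := by
    have := le_max_left ‖a - b‖ ‖b - c‖
    have := le_max_right ‖a - b‖ ‖b - c‖
    linarith
  calc ‖a - c‖ ^ p ≤ (2 * max ‖a - b‖ ‖b - c‖) ^ p := Real.rpow_le_rpow (norm_nonneg _) h2 hp
    _ = 2 ^ p * max ‖a - b‖ ‖b - c‖ ^ p :=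
      Real.mul_rpow (by norm_num) (le_max_of_le_left (norm_nonneg _))
    _ ≤ 2 ^ p * (‖a - b‖ ^ p + ‖b - c‖ ^ p) := by
      refine mul_le_mul_of_nonneg_left ?_ (by positivity)
      rcases max_cases ‖a - b‖ ‖b - c‖ with ⟨h, -⟩ | ⟨h, -⟩ <;> rw [h]
      · exact le_add_of_nonneg_right (by positivity)
      · exact le_add_of_nonneg_left (by positivity)

theorem lint_tri {p : ℝ} (hp : 0 ≤ p) {α : Type*} [MeasurableSpace α] {μ : Measure α}
    {a b c : α → V} (hm : AEStronglyMeasurable (fun t => a t - b t) μ) :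
    ∫⁻ t, ENNReal.ofReal (‖a t - c t‖ ^ p) ∂μ ≤
      ENNReal.ofReal (2 ^ p) * (∫⁻ t, ENNReal.ofReal (‖a t - b t‖ ^ p) ∂μ +
        ∫⁻ t, ENNReal.ofReal (‖b t - c t‖ ^ p) ∂μ) := by
  rw [← lintegral_add_left' (by
    have := hm.norm.aemeasurable
    exact (this.pow_const p).ennreal_ofReal), ← lintegral_const_mul' _ _ ENNReal.ofReal_ne_top]
  refine lintegral_mono fun t => ?_
  rw [← ENNReal.ofReal_add (by positivity) (by positivity), ← ENNReal.ofReal_mul (by positivity)]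
  exact ENNReal.ofReal_le_ofReal (rpow_tri hp _ _ _)

/-! ## scaling -/

theorem lint_smul {p : ℝ} {α : Type*} [MeasurableSpace α] {μ : Measure α} {r : ℝ} (hr : 0 ≤ r)
    (w : α → V) :
    ∫⁻ t, ENNReal.ofReal (‖r • w t‖ ^ p) ∂μ =
      ENNReal.ofReal (r ^ p) * ∫⁻ t, ENNReal.ofReal (‖w t‖ ^ p) ∂μ := by
  rw [← lintegral_const_mul' _ _ ENNReal.ofReal_ne_top]
  refine lintegral_congr fun t => ?_
  rw [norm_smul, Real.norm_of_nonneg hr, Real.mul_rpow hr (norm_nonneg _),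
    ENNReal.ofReal_mul (by positivity)]

/-- the one-dimensional energy in terms of `eInt` -/
theorem lint_of_eInt {p : ℝ} {v : V} {e : Idx × Fin 3} {W : V → V} {c : ℝ}
    (h : eInt v e (fun x => ENNReal.ofReal (‖W x‖ ^ p)) ≤ ENNReal.ofReal (c / 2 ^ e.1.1)) :
    ∫⁻ t in Icc (0:ℝ) 1, ENNReal.ofReal (‖(1 / 2 ^ e.1.1 : ℝ) • W (gam v e t)‖ ^ p) ≤
      ENNReal.ofReal (c * (1 / 2 ^ e.1.1) ^ p) := by
  set r : ℝ := 1 / 2 ^ e.1.1 with hr
  have hr0 : 0 < r := by positivity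
  rw [lint_smul hr0.le (fun t => W (gam v e t)), mul_comm c,
    ENNReal.ofReal_mul (by positivity)]
  refine mul_le_mul_right ?_ _
  have h1 : ENNReal.ofReal r * ∫⁻ t in Icc (0:ℝ) 1, ENNReal.ofReal (‖W (gam v e t)‖ ^ p) ≤
      ENNReal.ofReal r * ENNReal.ofReal c := by
    rw [← ENNReal.ofReal_mul hr0.le]
    refine h.trans (ENNReal.ofReal_le_ofReal (le_of_eq ?_))
    rw [hr]; ring
  rwa [ENNReal.mul_le_mul_iff_right (by simpa using hr0) ENNReal.ofReal_ne_top] at h1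

/-- `eInt` in terms of the one-dimensional energy -/
theorem eInt_of_lint {p : ℝ} {v : V} {e : Idx × Fin 3} {W : V → V} {c : ℝ}
    (h : ∫⁻ t in Icc (0:ℝ) 1, ENNReal.ofReal (‖(1 / 2 ^ e.1.1 : ℝ) • W (gam v e t)‖ ^ p) ≤
      ENNReal.ofReal (c * (1 / 2 ^ e.1.1) ^ p)) :
    eInt v e (fun x => ENNReal.ofReal (‖W x‖ ^ p)) ≤ ENNReal.ofReal (c / 2 ^ e.1.1) := by
  set r : ℝ := 1 / 2 ^ e.1.1 with hr
  have hr0 : 0 < r := by positivity
  have hrp : 0 < r ^ p := Real.rpow_pos_of_pos hr0 p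
  rw [lint_smul hr0.le (fun t => W (gam v e t)), mul_comm c,
    ENNReal.ofReal_mul (by positivity),
    ENNReal.mul_le_mul_iff_right (by simpa using hrp) ENNReal.ofReal_ne_top] at h
  have h1 : eInt v e (fun x => ENNReal.ofReal (‖W x‖ ^ p)) =
      ENNReal.ofReal r * ∫⁻ t in Icc (0:ℝ) 1, ENNReal.ofReal (‖W (gam v e t)‖ ^ p) := rfl
  rw [h1]
  refine (mul_le_mul_right h _).trans ?_
  rw [← ENNReal.ofReal_mul hr0.le]
  refine ENNReal.ofReal_le_ofReal (le_of_eq ?_)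
  rw [hr]; ring

/-! ## the energies -/

variable {p : ℝ} {f h h' G : V → V} {F : V → Mat} {v : V} {e : Idx × Fin 3}

/-- the derivative of `f` along the edge `e` -/
noncomputable def De (v : V) (F : V → Mat) (e : Idx × Fin 3) (t : ℝ) : V :=
  cl (F (gam v e t)) ((1 / 2 ^ e.1.1 : ℝ) • ev e.2)

theorem de_eq (t : ℝ) : De v F e t = (1 / 2 ^ e.1.1 : ℝ) • cl (F (gam v e t)) (ev e.2) := by
  rw [De, map_smul]

theorem measurable_deriv_gam (h : V → V) (v : V) (e : Idx × Fin 3) :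
    Measurable (fun t => deriv (fun s => h (gam v e s)) t) := measurable_deriv _

theorem aesm_De (hg : IntervalIntegrable (De v F e) volume 0 1) :
    AEStronglyMeasurable (De v F e) (volume.restrict (Icc (0:ℝ) 1)) := by
  have := hg.1.aestronglyMeasurable
  rwa [restrict_Ioc_eq_restrict_Icc] at this

/-- from the Euclidean norm to the sup norm -/
theorem lint_euc (hp : 0 ≤ p) {w : ℝ → V} {S : Set ℝ} {c : ℝ≥0∞}
    (h : ∫⁻ t in S, ENNReal.ofReal (euc (w t) ^ p) ≤ c) :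
    ∫⁻ t in S, ENNReal.ofReal (‖w t‖ ^ p) ≤ c :=
  (lintegral_mono fun t => ENNReal.ofReal_le_ofReal
    (Real.rpow_le_rpow (norm_nonneg _) (norm_le_euc _) hp)).trans h

/-- **own edges**: the derivative of `h` is close to `B` -/
theorem own_energy (hp : 0 ≤ p) {B : V →L[ℝ] V} {κ c : ℝ} (hκ : 0 ≤ κ)
    (hg : IntervalIntegrable (De v F e) volume 0 1)
    (h1 : ∫⁻ t in Icc (0:ℝ) 1, ENNReal.ofReal
      (‖deriv (fun s => h (gam v e s)) t - De v F e t‖ ^ p) ≤ ENNReal.ofReal c)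
    (hc : c ≤ κ / 2 ^ (p + 1) * (1 / 2 ^ e.1.1) ^ p)
    (h2 : eInt v e (fun x => ENNReal.ofReal (‖cl (F x) (ev e.2) - B (ev e.2)‖ ^ p)) ≤
      ENNReal.ofReal (κ / 2 ^ (p + 1) / 2 ^ e.1.1)) :
    dvar p h v e (B ((1 / 2 ^ e.1.1 : ℝ) • ev e.2)) ≤
      ENNReal.ofReal (κ * (1 / 2 ^ e.1.1) ^ p) := by
  have h3 := lint_of_eInt (W := fun x => cl (F x) (ev e.2) - B (ev e.2)) h2
  have h4 : ∀ t, (1 / 2 ^ e.1.1 : ℝ) • (cl (F (gam v e t)) (ev e.2) - B (ev e.2)) =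
      De v F e t - B ((1 / 2 ^ e.1.1 : ℝ) • ev e.2) := by
    intro t
    rw [de_eq, map_smul, smul_sub]
  simp only [h4] at h3
  refine (lint_tri (b := De v F e) hp ?_).trans ?_
  · exact ((measurable_deriv_gam h v e).aestronglyMeasurable).sub (aesm_De hg)
  have h5 : ENNReal.ofReal c ≤ ENNReal.ofReal (κ / 2 ^ (p + 1) * (1 / 2 ^ e.1.1) ^ p) :=
    ENNReal.ofReal_le_ofReal hc
  refine (mul_le_mul_right (add_le_add (h1.trans h5) h3) _).trans ?_
  rw [← ENNReal.ofReal_add (by positivity) (by positivity), ← ENNReal.ofReal_mul (by positivity)]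
  refine ENNReal.ofReal_le_ofReal (le_of_eq ?_)
  have h6 : (2:ℝ) ^ (p + 1) = 2 ^ p * 2 := by rw [Real.rpow_add (by norm_num), Real.rpow_one]
  have h7 : (2:ℝ) ^ p ≠ 0 := (Real.rpow_pos_of_pos (by norm_num) p).ne'
  rw [h6]
  field_simp
  ring

/-- the derivative of the smooth map along an edge is measurable -/
theorem measurable_fd (G : V → V) (v : V) (e : Idx × Fin 3) (w : V) :
    Measurable (fun t => fderiv ℝ G (gam v e t) w) :=
  (measurable_fderiv_apply_const ℝ G w).comp (by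
    have : Continuous (gam v e) := by
      unfold gam
      fun_prop
    exact this.measurable)

/-- **net edges**: the derivative of `G` is close to the one of `f` -/
theorem net_energy (hp : 0 ≤ p) {c c' δ : ℝ} (hc : 0 ≤ c) (hc' : 0 ≤ c')
    (heq : ∀ x ∈ edge v e, h' x = h x)
    (h1 : ∫⁻ t in Icc (0:ℝ) 1, ENNReal.ofReal
      (‖deriv (fun s => h (gam v e s)) t - De v F e t‖ ^ p) ≤ ENNReal.ofReal c)
    (h2 : ∫⁻ t in Icc (0:ℝ) 1, ENNReal.ofReal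
      (‖fderiv ℝ G (gam v e t) ((1 / 2 ^ e.1.1 : ℝ) • ev e.2) -
        deriv (fun s => h' (gam v e s)) t‖ ^ p) ≤ ENNReal.ofReal c')
    (hcc : 2 ^ p * (c' + c) ≤ δ * 2 ^ e.1.1 * (1 / 2 ^ e.1.1) ^ p) :
    eInt v e (fun x => ENNReal.ofReal (‖fderiv ℝ G x (ev e.2) - cl (F x) (ev e.2)‖ ^ p)) ≤
      ENNReal.ofReal δ := by
  have hr0 : (0:ℝ) < 1 / 2 ^ e.1.1 := by positivity
  -- the derivatives of `h'` and of `h` agree
  have h3 : ∀ t ∈ Ioo (0:ℝ) 1,
      deriv (fun s => h' (gam v e s)) t = deriv (fun s => h (gam v e s)) t := by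
    intro t ht
    refine Filter.EventuallyEq.deriv_eq ?_
    filter_upwards [isOpen_Ioo.mem_nhds ht] with s hs
    refine heq _ ?_
    rw [edge, segment_eq_image']
    exact ⟨s, Ioo_subset_Icc_self hs, by simp [gam]⟩
  have h4 : ∫⁻ t in Icc (0:ℝ) 1, ENNReal.ofReal
      (‖deriv (fun s => h' (gam v e s)) t - De v F e t‖ ^ p) ≤ ENNReal.ofReal c := by
    refine le_trans (le_of_eq ?_) h1
    rw [← restrict_Ioo_eq_restrict_Icc]
    refine setLIntegral_congr_fun measurableSet_Ioo fun t ht => ?_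
    rw [h3 t ht]
  have h5 := lint_tri (c := De v F e) hp
    (((measurable_fd G v e ((1 / 2 ^ e.1.1 : ℝ) • ev e.2)).sub
      (measurable_deriv_gam h' v e)).aestronglyMeasurable (μ := volume.restrict (Icc (0:ℝ) 1)))
  have h6 : eInt v e (fun x => ENNReal.ofReal (‖fderiv ℝ G x (ev e.2) - cl (F x) (ev e.2)‖ ^ p)) ≤
      ENNReal.ofReal (δ * 2 ^ e.1.1 / 2 ^ e.1.1) := by
    refine eInt_of_lint (W := fun x => fderiv ℝ G x (ev e.2) - cl (F x) (ev e.2)) ?_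
    have h7 : ∀ t, (1 / 2 ^ e.1.1 : ℝ) •
        (fderiv ℝ G (gam v e t) (ev e.2) - cl (F (gam v e t)) (ev e.2)) =
        fderiv ℝ G (gam v e t) ((1 / 2 ^ e.1.1 : ℝ) • ev e.2) - De v F e t := by
      intro t
      rw [de_eq, map_smul, smul_sub]
    simp only [h7]
    refine h5.trans ((mul_le_mul_right (add_le_add h2 h4) _).trans ?_)
    rw [← ENNReal.ofReal_add hc' hc, ← ENNReal.ofReal_mul (by positivity)]
    exact ENNReal.ofReal_le_ofReal hcc
  refine h6.trans (ENNReal.ofReal_le_ofReal (le_of_eq ?_))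
  field_simp

/-- **gap edges** -/
theorem gap_energy (hp : 0 ≤ p) {c C : ℝ} (hc : 0 ≤ c) (hC : 0 ≤ C)
    (h1 : dvar p h' v e 0 ≤ ENNReal.ofReal (C * (1 / 2 ^ e.1.1) ^ p))
    (h2 : ∫⁻ t in Icc (0:ℝ) 1, ENNReal.ofReal
      (‖fderiv ℝ G (gam v e t) ((1 / 2 ^ e.1.1 : ℝ) • ev e.2) -
        deriv (fun s => h' (gam v e s)) t‖ ^ p) ≤ ENNReal.ofReal c)
    (hcc : c ≤ (1 / 2 ^ e.1.1) ^ p) :
    eInt v e (fun x => ENNReal.ofReal (‖fderiv ℝ G x (ev e.2)‖ ^ p)) ≤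
      ENNReal.ofReal (2 ^ p * (C + 1) / 2 ^ e.1.1) := by
  have h5 := lint_tri (c := fun _ => (0:V)) hp
    (((measurable_fd G v e ((1 / 2 ^ e.1.1 : ℝ) • ev e.2)).sub
      (measurable_deriv_gam h' v e)).aestronglyMeasurable (μ := volume.restrict (Icc (0:ℝ) 1)))
  refine eInt_of_lint (W := fun x => fderiv ℝ G x (ev e.2)) ?_
  have h7 : ∀ t, (1 / 2 ^ e.1.1 : ℝ) • (fderiv ℝ G (gam v e t) (ev e.2)) =
      fderiv ℝ G (gam v e t) ((1 / 2 ^ e.1.1 : ℝ) • ev e.2) - 0 := by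
    intro t
    rw [map_smul, sub_zero]
  simp only [h7]
  refine h5.trans ((mul_le_mul_right (add_le_add h2 h1) _).trans ?_)
  rw [← ENNReal.ofReal_add hc (by positivity), ← ENNReal.ofReal_mul (by positivity)]
  refine ENNReal.ofReal_le_ofReal ?_
  have h8 : 2 ^ p * (C + 1) * (1 / 2 ^ e.1.1) ^ p =
      2 ^ p * ((1 / 2 ^ e.1.1) ^ p + C * (1 / 2 ^ e.1.1) ^ p) := by ring
  rw [h8]
  exact mul_le_mul_of_nonneg_left (by linarith) (by positivity)

end P073.GS
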