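import Vale.Agent.P073.GS580.G1_308

/-!
# P073, block SEC2, `SpecFaceSec` (helper308)
-/

open Set Metric Topology MeasureTheory Filter

namespace P073.GS

namespace G2

open Vale.Agent.P073.St (V)
open Vale.Agent.P073.SQ (ev)
open Vale.Agent.P073.AB
open Vale.Agent.P073.AB.S308
open Vale.Agent.P073.AB.P86
open Vale.Agent.P073.LOC (Q1 core mid part IsMid FineE NetE sqT plq IC IO)
open Vale.Agent.P073.LOC.G308
open P073.Net (dyc dyo)
open P073.Net.NC (dyA dyB)
open P073.Plate (FaceT TCx pbox prel)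

variable {v : V} {n m n₀ : ℕ} {x : V}

/-- a square of a middle plane, in the core -/
def Md (v : V) (n : ℕ) (s : Idx × Fin 3) : Prop :=
  s.2 = 2 ∧ squ v s ⊆ core v n ∧ IsMid v n (pt v s.1.1 s.1.2 2)

theorem Num.dat (h : Num v n m n₀) : Dat v n m := ⟨h.org, h.hn, h.hm⟩

/-- the height of a middle plane is not a plane of generation `n` -/
theorem not_mid (w : Fin 3 → ℤ) : ¬ IsMid v n (pt v n w 2) := by
  rintro ⟨z, -, -, h⟩
  simp only [pt, mid] at h
  have h1 : (w 2 : ℝ) / 2 ^ n = (2 * z + 1) / 2 ^ (n + 1) := by linarith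
  rw [pow_succ, div_eq_div_iff (by positivity) (by positivity)] at h1
  have h2 : (0:ℝ) < 2 ^ n := by positivity
  have h3 : (w 2 : ℝ) * 2 = 2 * z + 1 := by
    have : ((w 2 : ℝ) * 2 - (2 * z + 1)) * 2 ^ n = 0 := by linarith
    rcases mul_eq_zero.1 this with h | h
    · linarith
    · exact absurd h h2.ne'
  have h4 : w 2 * 2 = 2 * z + 1 := by exact_mod_cast h3
  omega

/-- squares in the same plane have the same height -/
theorem same_height {s t : Idx × Fin 3} (hs : s.2 = 2) (ht : t.2 = 2) (h : squ v s ⊆ squ v t) :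
    pt v s.1.1 s.1.2 2 = pt v t.1.1 t.1.2 2 := by
  have h1 : sc v s ∈ squ v s := sc_mem_squ
  have h2 := (h h1).1
  have h3 := h1.1
  rw [hs] at h3
  rw [ht] at h2
  simp only [pt]
  linarith

/-- equality of squares -/
theorem squ_eq {s t : Idx × Fin 3} (hg : s.1.1 = t.1.1) (hk : s.2 = t.2)
    (h : squ v s ⊆ squ v t) : s = t := by
  obtain ⟨⟨g, w⟩, k⟩ := s
  obtain ⟨⟨g', w'⟩, k'⟩ := t
  simp only at hg hk
  subst hg hk
  have hp : (0:ℝ) < 1 / 2 ^ g := by positivity
  have h1 : (fun j => v j + w j / 2 ^ g : V) ∈ squ v ((g, w), k) :=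
    ⟨rfl, fun j _ => ⟨le_rfl, by rw [P86.div_add_one]; linarith⟩⟩
  have h2 : (fun j => if j = k then v j + w j / 2 ^ g else
      v j + (w j + 1) / 2 ^ g : V) ∈ squ v ((g, w), k) := by
    refine ⟨by simp, fun j hj => ?_⟩
    have hj' : j ≠ k := hj
    simp only [if_neg hj']
    exact ⟨by rw [P86.div_add_one]; linarith, le_rfl⟩
  have a1 := h h1
  have a2 := h h2
  have : w = w' := by
    funext j
    by_cases hj : j = k
    · subst hj
      have c := a1.1
      simp only [add_right_inj] at c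
      have h4 : (0:ℝ) < 2 ^ g := by positivity
      have h5 := (div_left_inj' h4.ne').1 c
      exact_mod_cast h5
    · have c1 := (a1.2 j hj).1
      have c2 := (a2.2 j hj).2
      simp only [if_neg hj] at c2
      simp only [add_le_add_iff_left] at c1 c2
      have c3 : ((w j + 1 : ℤ) : ℝ) / 2 ^ g ≤ ((w' j + 1 : ℤ) : ℝ) / 2 ^ g := by
        push_cast; exact c2
      rw [cast_div_le] at c3
      have c4 := cast_div_le.1 c1
      omega
  subst this
  rfl

/-- the minimal squares of the middle planes -/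
theorem min_mid (h : Num v n m n₀) {s : Idx × Fin 3} (hs : MinSq v (part v n m) s)
    (hm : IsMid v n (pt v s.1.1 s.1.2 2)) (hx : x ∈ squ v s)
    (hxc : x ∈ core v n) : s.1.1 = m ∧ squ v s ⊆ core v n := by
  obtain ⟨⟨q, hq, hf⟩, -⟩ := hs
  rcases hq with hq | hq
  · exfalso
    have h1 : q.1 = n := IO_gen_of_meet (Num.dat h) hq hxc (squ_sub_of_face hf hx)
    have h2 : s.1.1 = n := hf.1.trans h1
    rw [h2] at hm
    exact not_mid _ hm
  · exact ⟨hf.1.trans hq.1, (squ_sub_of_face hf).trans hq.2⟩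

/-- the face of a fine cube of the core is minimal -/
theorem min_of_IC (h : Num v n m n₀) {w : Fin 3 → ℤ} (hw : dyc v m w ⊆ core v n) (k : Fin 3) :
    MinSq v (part v n m) ((m, w), k) := by
  refine ⟨⟨(m, w), Or.inr ⟨rfl, hw⟩, rfl, Or.inl rfl, fun _ _ => rfl⟩, ?_⟩
  rintro s' ⟨q, hq, hf⟩ hlt - hsub
  simp only at hlt
  rcases hq with hq | hq
  · have hx : sc v s' ∈ core v n := hw (squ_sub_hi (hsub sc_mem_squ))
    have h1 : q.1 = n := IO_gen_of_meet (Num.dat h) hq hx (squ_sub_of_face hf sc_mem_squ)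
    have h2 := (Num.dat h).lt
    rw [hf.1, h1] at hlt
    omega
  · rw [hf.1, hq.1] at hlt
    exact lt_irrefl _ hlt

/-- a square of the core, below the top: the cube above is in the core -/
theorem hi_in_core {s : Idx × Fin 3} (hg : n ≤ s.1.1) (hc : squ v s ⊆ core v n)
    (hlt : (s.1.2 s.2 : ℝ) / 2 ^ s.1.1 < ((2 ^ n - 3 : ℤ):ℝ) / 2 ^ n) :
    dyc v s.1.1 s.1.2 ⊆ core v n := by
  rw [core_eq] at hc ⊢
  have hp : (0:ℝ) < 1 / 2 ^ s.1.1 := by positivity
  have h1 : (fun k => v k + s.1.2 k / 2 ^ s.1.1 : V) ∈ squ v s :=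
    ⟨rfl, fun j _ => ⟨le_rfl, by rw [P86.div_add_one]; linarith⟩⟩
  have h2 : (fun k => if k = s.2 then v k + s.1.2 k / 2 ^ s.1.1 else
      v k + (s.1.2 k + 1) / 2 ^ s.1.1 : V) ∈ squ v s := by
    refine ⟨by simp, fun j hj => ?_⟩
    simp only [if_neg hj]
    exact ⟨by rw [P86.div_add_one]; linarith, le_rfl⟩
  have a1 := hc h1
  have a2 := hc h2
  have hplane : (((2:ℤ):ℤ):ℝ) / 2 ^ n ≤ s.1.2 s.2 / 2 ^ s.1.1 := by
    have := a1 s.2
    linarith [this.1, this.2]
  have hoth : ∀ l, l ≠ s.2 → (((2:ℤ):ℤ):ℝ) / 2 ^ n ≤ s.1.2 l / 2 ^ s.1.1 ∧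
      ((s.1.2 l : ℝ) + 1) / 2 ^ s.1.1 ≤ ((2 ^ n - 3 : ℤ):ℝ) / 2 ^ n := by
    intro l hl
    have b1 := (a1 l).1
    have b2 := (a2 l).2
    simp only [if_neg hl] at b2
    constructor <;> linarith
  have h3 := dyA hg hlt
  intro y hy k
  have c := hy k
  by_cases hk : k = s.2
  · subst hk
    constructor <;> linarith [c.1, c.2, hplane]
  · have d := hoth k hk
    constructor <;> linarith [c.1, c.2, d.1, d.2]

theorem gen_le_core {s : Idx × Fin 3} (hc : squ v s ⊆ core v n) (hg : n ≤ s.1.1) (k : Fin 3)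
    {D : ℕ} (hD : s.1.1 = n + D) :
    s.1.2 k ∈ Icc ((2:ℤ) * 2 ^ D) ((2 ^ n - 3) * 2 ^ D) := by
  have hp : (0:ℝ) < 1 / 2 ^ s.1.1 := by positivity
  have h1 : (fun k => v k + s.1.2 k / 2 ^ s.1.1 : V) ∈ squ v s :=
    ⟨rfl, fun j _ => ⟨le_rfl, by rw [P86.div_add_one]; linarith⟩⟩
  have a1 := hc h1 
  rw [core_fine v n D] at a1
  obtain ⟨c1, c2⟩ := a1 k
  rw [← hD] at c1 c2
  simp only [add_le_add_iff_left] at c1 c2
  exact ⟨cast_div_le.1 c1, cast_div_le.1 c2⟩

/-- the fine squares of the core are finitely many -/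
theorem fin_core {g : ℕ} (hg : n ≤ g) : {s : Idx × Fin 3 | s.1.1 = g ∧ squ v s ⊆ core v n}.Finite := by
  obtain ⟨D, hD⟩ := Nat.exists_eq_add_of_le hg
  refine Set.Finite.subset (Set.Finite.prod (Set.Finite.prod (Set.finite_singleton g)
    (Set.Finite.pi' (fun k : Fin 3 => Set.finite_Icc ((2:ℤ) * 2 ^ D) ((2 ^ n - 3) * 2 ^ D))))
    (Set.finite_univ (α := Fin 3))) ?_
  rintro s ⟨h1, h2⟩
  refine ⟨⟨h1, fun k => gen_le_core h2 (by omega) k (by omega)⟩, mem_univ _⟩

end G2

open Vale.Agent.P073.St (V)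
open Vale.Agent.P073.AB
open Vale.Agent.P073.AB.S308
open Vale.Agent.P073.AB.P86
open Vale.Agent.P073.LOC (Q1 core mid part IsMid FineE NetE sqT plq IC IO)
open Vale.Agent.P073.LOC.G308
open P073.Net (dyc dyo)
open P073.Plate (FaceT)

/-- **(G2)** -/
theorem specFaceSec : SpecFaceSec := by
  intro v n m n₀ h
  have hI : Part Q1 v (part v n m) := specPartSec v n m n₀ h
  have hlt := (G2.Num.dat h).lt
  obtain ⟨D, hD⟩ := Nat.exists_eq_add_of_le h.hn₀
  obtain ⟨d, hd⟩ := Nat.exists_eq_add_of_le hlt.le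
  have hd2 : 2 ≤ d := by have := h.hm; omega
  refine ⟨?_, ?_, ?_, ?_⟩
  · rintro s (⟨hs, -⟩ | ⟨hk, hg, hc, hm⟩)
    · exact ⟨s, hs, rfl, Subset.rfl⟩
    · obtain ⟨⟨g, w⟩, k⟩ := s
      simp only at hk hg hc hm
      subst hk
      obtain ⟨z, hz1, hz2, hz⟩ := hm
      simp only [pt, mid, add_right_inj] at hz
      -- the height
      have hw2 : w 2 = (2 * z + 1) * 2 ^ (d - 1) * 2 ^ D := by
        have e1 : (2:ℝ) ^ g = 2 ^ (n + 1) * (2 ^ (d - 1) * 2 ^ D) := by
          rw [hg, hD, hd, ← pow_add, ← pow_add]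
          congr 1
          omega
        rw [e1, div_eq_div_iff (by positivity) (by positivity)] at hz
        have h2 : (0:ℝ) < 2 ^ (n + 1) := by positivity
        have h3 : (w 2 : ℝ) = (2 * z + 1) * 2 ^ (d - 1) * 2 ^ D := by
          have : ((w 2 : ℝ) - (2 * z + 1) * 2 ^ (d - 1) * 2 ^ D) * 2 ^ (n + 1) = 0 := by
            linarith
          rcases mul_eq_zero.1 this with h | h
          · linarith
          · exact absurd h h2.ne'
        exact_mod_cast h3
      have hDp : (0:ℤ) < 2 ^ D := by positivity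
      have hdiv : anc D w 2 = (2 * z + 1) * 2 ^ (d - 1) := by
        simp only [anc]
        rw [hw2]
        exact Int.mul_ediv_cancel _ hDp.ne'
      have hcube : dyc v g w ⊆ core v n := by
        refine G2.hi_in_core (s := ((g, w), 2)) (by simp only; omega) hc ?_
        show (w 2 : ℝ) / 2 ^ g < _
        rw [hz, pow_succ, div_lt_div_iff₀ (by positivity) (by positivity)]
        have : (z:ℝ) + 1 ≤ 2 ^ n - 3 := by
          have : z + 1 ≤ 2 ^ n - 3 := by omega
          exact_mod_cast this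
        have h2 : (0:ℝ) < 2 ^ n := by positivity
        push_cast
        nlinarith
      have hcube' : dyc v m (anc D w) ⊆ core v n := by
        rw [core_fine v n d, ← hd] at hcube ⊢
        apply anc_sub_gbox
        rw [← hD, ← hg]
        exact hcube
      refine ⟨((m, anc D w), 2), G2.min_of_IC h hcube' 2, rfl, ?_⟩
      have hsubd : squ v ((g, w), 2) ⊆ dyc v m (anc D w) := by
        refine squ_sub_hi.trans ?_
        show dyc v g w ⊆ _
        rw [hg, hD]
        exact dyc_sub_anc v m D w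
      intro y hy
      refine ⟨?_, fun k _ => hsubd hy k⟩
      show y 2 = v 2 + (anc D w 2 : ℤ) / 2 ^ m
      have h1 : y 2 = v 2 + (w 2 : ℤ) / 2 ^ g := hy.1
      rw [h1, hdiv, hw2, hg, hD, pow_add]
      push_cast
      field_simp
  · intro s' hs' x hx
    by_cases hmd : G2.Md v n s'
    · obtain ⟨hk, hc, hm⟩ := hmd
      obtain ⟨hg, -⟩ := G2.min_mid h hs' hm hx (hc hx)
      obtain ⟨⟨g, w⟩, k⟩ := s'
      simp only at hk hg hc hm
      subst hk hg
      have hxd : x ∈ dyc v g w := squ_sub_hi hx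
      rw [dyc_coarse v g D] at hxd
      obtain ⟨u, hu, hu'⟩ := exists_dyc_of_mem_gbox (fun k => by
        have hDp : (0:ℤ) < 2 ^ D := by positivity
        nlinarith) hxd
      rw [dyc_sub_gbox_iff] at hu'
      have hpl : (((w 2 * 2 ^ D : ℤ)) : ℝ) / 2 ^ (g + D) = w 2 / 2 ^ g := by
        push_cast
        rw [pow_add]
        field_simp
      have hsub : squ v ((g + D, Function.update u 2 (w 2 * 2 ^ D)), 2) ⊆ squ v ((g, w), 2) := by
        rintro y ⟨hy1, hy2⟩
        simp only [Function.update_self] at hy1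
        refine ⟨?_, fun k hk => ?_⟩
        · show y 2 = v 2 + (w 2 : ℤ) / 2 ^ g
          rw [hy1, hpl]
        · have hk' : k ≠ 2 := hk
          obtain ⟨c1, c2⟩ := hy2 k hk
          simp only [Function.update_of_ne hk'] at c1 c2
          obtain ⟨b1, b2⟩ := hu' k
          have f1 : (w k : ℝ) / 2 ^ g ≤ u k / 2 ^ (g + D) := by
            have := (cast_div_le (N := g + D)).2 b1
            refine le_trans (le_of_eq ?_) this
            push_cast
            rw [pow_add]
            field_simp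
          have f2 : ((u k : ℝ) + 1) / 2 ^ (g + D) ≤ (w k + 1) / 2 ^ g := by
            have := (cast_div_le (N := g + D)).2 b2
            refine le_trans (le_of_eq ?_) (this.trans (le_of_eq ?_))
            · push_cast; rfl
            · push_cast
              rw [pow_add]
              field_simp
          constructor
          · show v k + (w k : ℝ) / 2 ^ g ≤ y k
            linarith
          · show y k ≤ v k + ((w k : ℝ) + 1) / 2 ^ g
            linarith
      refine ⟨((g + D, Function.update u 2 (w 2 * 2 ^ D)), 2), Or.inr ⟨rfl, hD.symm,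
        hsub.trans hc, ?_⟩, rfl, hsub, ?_⟩
      · rw [G2.same_height (s := ((g + D, Function.update u 2 (w 2 * 2 ^ D)), 2))
          (t := ((g, w), 2)) rfl rfl hsub]
        exact hm
      · refine ⟨?_, fun k hk => ?_⟩
        · show x 2 = v 2 + ((Function.update u 2 (w 2 * 2 ^ D) 2 : ℤ) : ℝ) / 2 ^ (g + D)
          rw [Function.update_self, hpl]
          exact hx.1
        · have hk' : k ≠ 2 := hk
          show v k + ((Function.update u 2 (w 2 * 2 ^ D) k : ℤ) : ℝ) / 2 ^ (g + D) ≤ x k ∧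
            x k ≤ v k + (((Function.update u 2 (w 2 * 2 ^ D) k : ℤ) : ℝ) + 1) / 2 ^ (g + D)
          rw [Function.update_of_ne hk']
          exact hu k
    · exact ⟨s', Or.inl ⟨hs', hmd⟩, rfl, Subset.rfl, hx⟩
  · rintro s (⟨hs, hn⟩ | ⟨hk, hg, hc, hm⟩) s' (⟨hs', hn'⟩ | ⟨hk', hg', hc', hm'⟩) hkk hsub
    · exact sq_disj isOpen_Q1 hI hs hs' sc_mem (hsub sc_mem_squ)
    · exfalso
      apply hn
      have hk : s.2 = 2 := hkk.trans hk'
      refine ⟨hk, hsub.trans hc', ?_⟩
      rw [G2.same_height hk hk' hsub]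
      exact hm'
    · exfalso
      apply hn'
      have hk' : s'.2 = 2 := hkk.symm.trans hk
      have hm'' : IsMid v n (pt v s'.1.1 s'.1.2 2) := by
        rw [← G2.same_height hk hk' hsub]; exact hm
      exact ⟨hk', (G2.min_mid h hs' hm'' (hsub sc_mem_squ) (hc sc_mem_squ)).2, hm''⟩
    · exact G2.squ_eq (hg.trans hg'.symm) hkk hsub
  · intro s' hs'
    obtain ⟨q, hq, hf⟩ := hs'.1
    refine ((finite_minSq hI hq).union (G2.fin_core (v := v) (n := n) (g := n₀) (by omega))).subset ?_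
    rintro s ⟨⟨hs, -⟩ | ⟨-, hg, hc, -⟩, hsub⟩
    · exact Or.inl ⟨hs, hsub.trans (squ_sub_of_face hf)⟩
    · exact Or.inr ⟨hg, hc⟩

end P073.GS
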