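import Vale.Agent.P073.GS580.Spec
import Vale.Agent.P073.LOC.Geo308c
import Vale.Agent.P073.Gauge.CxT673

/-!
# P073, block SEC2, `SpecGaugeSec2`, part (G3b): the edges of the net and of the squares `sqT`
-/

open Set Metric Topology MeasureTheory Filter

namespace P073.GS

open Vale.Agent.P073.St (V)
open Vale.Agent.P073.SQ (ev)
open Vale.Agent.P073.AB
open Vale.Agent.P073.AB.S308
open Vale.Agent.P073.LOC (Q1 core mid part IsMid FineE NetE sqT plq)
open Vale.Agent.P073.LOC.G308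
open P073.Net (dyc dyo)
open P073.Plate (FaceT)

namespace B107

variable {v : V} {g : ℕ} {a b : Fin 3 → ℤ}

/-- the lattice coordinates of an edge in a grid box -/
theorem edge_coord {e : Idx × Fin 3} (hg : e.1.1 = g) (h : edge v e ⊆ gbox v g a b) :
    (∀ k, a k ≤ e.1.2 k ∧ e.1.2 k ≤ b k) ∧ e.1.2 e.2 + 1 ≤ b e.2 := by
  obtain ⟨⟨m, z⟩, k⟩ := e
  simp only at hg
  subst hg
  have h1 : pt v m z ∈ gbox v m a b := h (pt_mem_edge ((m, z), k))
  refine ⟨pt_mem_gbox.1 h1, ?_⟩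
  have h2 : pt v m (Function.update z k (z k + 1)) ∈ edge v ((m, z), k) := by
    refine Gr.mem_edge.2 ⟨fun j hj => ?_, ?_, ?_⟩
    · show v j + ((Function.update z k (z k + 1) j : ℤ) : ℝ) / 2 ^ m = v j + (z j : ℝ) / 2 ^ m
      rw [Function.update_of_ne hj]
    · show v k + (z k : ℝ) / 2 ^ m ≤ v k + ((Function.update z k (z k + 1) k : ℤ) : ℝ) / 2 ^ m
      rw [Function.update_self]
      have : (z k : ℝ) / 2 ^ m ≤ ((z k + 1 : ℤ) : ℝ) / 2 ^ m := cast_div_le.2 (by omega)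
      linarith
    · show v k + ((Function.update z k (z k + 1) k : ℤ) : ℝ) / 2 ^ m ≤ v k + ((z k : ℝ) + 1) / 2 ^ m
      rw [Function.update_self]
      push_cast
      exact le_rfl
  have h3 := (pt_mem_gbox.1 (h h2) k).2
  rwa [Function.update_self] at h3

/-- an edge in a fat grid box is an edge of a cube in the box -/
theorem exists_cube (hab : ∀ k, a k < b k) {e : Idx × Fin 3} (hg : e.1.1 = g)
    (h : edge v e ⊆ gbox v g a b) : ∃ q : Idx, q.1 = g ∧ dyc v q.1 q.2 ⊆ gbox v g a b ∧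
      EdgeOf e q := by
  obtain ⟨h1, h2⟩ := edge_coord hg h
  refine ⟨(g, fun k => if k = e.2 then e.1.2 k else if e.1.2 k < b k then e.1.2 k else
    e.1.2 k - 1), rfl, ?_, hg, ?_, fun j hj => ?_⟩
  · refine dyc_sub_gbox_iff.2 fun k => ?_
    have h3 := h1 k
    have h4 := hab k
    show a k ≤ (if k = e.2 then e.1.2 k else if e.1.2 k < b k then e.1.2 k else e.1.2 k - 1) ∧
      (if k = e.2 then e.1.2 k else if e.1.2 k < b k then e.1.2 k else e.1.2 k - 1) + 1 ≤ b k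
    split_ifs with h5 h6
    · subst h5
      exact ⟨h3.1, h2⟩
    · omega
    · omega
  · show e.1.2 e.2 = if e.2 = e.2 then e.1.2 e.2 else if e.1.2 e.2 < b e.2 then e.1.2 e.2 else
      e.1.2 e.2 - 1
    rw [if_pos rfl]
  · show e.1.2 j = (if j = e.2 then e.1.2 j else if e.1.2 j < b j then e.1.2 j else e.1.2 j - 1) ∨
      e.1.2 j = (if j = e.2 then e.1.2 j else if e.1.2 j < b j then e.1.2 j else e.1.2 j - 1) + 1
    rw [if_neg hj]
    split_ifs with h5
    · exact Or.inl rfl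
    · exact Or.inr (by omega)

/-- a horizontal edge in a fat grid box is an edge of a horizontal square in the box -/
theorem exists_squ (hab : ∀ k, a k < b k) {e : Idx × Fin 3} (hg : e.1.1 = g) (he : e.2 ≠ 2)
    (h : edge v e ⊆ gbox v g a b) : ∃ s : Idx × Fin 3, s.2 = 2 ∧ s.1.1 = g ∧
      squ v s ⊆ gbox v g a b ∧ EdgeOfSq e s := by
  obtain ⟨h1, h2⟩ := edge_coord hg h
  refine ⟨((g, fun k => if k = e.2 then e.1.2 k else if k = 2 then e.1.2 k else
    if e.1.2 k < b k then e.1.2 k else e.1.2 k - 1), 2), rfl, rfl, ?_, hg, he, ?_, ?_,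
    fun j hj hj2 => ?_⟩
  · rintro x ⟨hx1, hx2⟩ k
    by_cases hk : k = 2
    · subst hk
      have h3 : x 2 = v 2 + (e.1.2 2 : ℝ) / 2 ^ g := by
        have : x 2 = v 2 + (((if (2 : Fin 3) = e.2 then e.1.2 2 else if (2 : Fin 3) = 2 then
          e.1.2 2 else if e.1.2 2 < b 2 then e.1.2 2 else e.1.2 2 - 1 : ℤ)) : ℝ) / 2 ^ g := hx1
        rw [if_neg (Ne.symm he), if_pos rfl] at this
        exact this
      rw [h3]
      have h4 : (a 2 : ℝ) / 2 ^ g ≤ (e.1.2 2 : ℝ) / 2 ^ g := cast_div_le.2 (h1 2).1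
      have h5 : (e.1.2 2 : ℝ) / 2 ^ g ≤ (b 2 : ℝ) / 2 ^ g := cast_div_le.2 (h1 2).2
      constructor <;> linarith
    · have h3 := hx2 k hk
      set c : ℤ := if k = e.2 then e.1.2 k else if k = 2 then e.1.2 k else
        if e.1.2 k < b k then e.1.2 k else e.1.2 k - 1 with hc
      have h4 : v k + (c : ℝ) / 2 ^ g ≤ x k ∧ x k ≤ v k + ((c : ℝ) + 1) / 2 ^ g := h3
      have h5 : a k ≤ c ∧ c + 1 ≤ b k := by
        have h6 := h1 k
        have h7 := hab k
        rw [hc]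
        split_ifs with h8 h9
        · subst h8
          exact ⟨h6.1, h2⟩
        · omega
        · omega
      have h6 : (a k : ℝ) / 2 ^ g ≤ (c : ℝ) / 2 ^ g := cast_div_le.2 h5.1
      have h7 : ((c + 1 : ℤ) : ℝ) / 2 ^ g ≤ (b k : ℝ) / 2 ^ g := cast_div_le.2 h5.2
      push_cast at h7
      constructor <;> linarith [h4.1, h4.2]
  · show e.1.2 e.2 = if e.2 = e.2 then _ else _
    rw [if_pos rfl]
  · show e.1.2 2 = if (2 : Fin 3) = e.2 then e.1.2 2 else if (2 : Fin 3) = 2 then _ else _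
    rw [if_neg (Ne.symm he), if_pos rfl]
  · have hj2' : j ≠ 2 := hj2
    show e.1.2 j = (if j = e.2 then e.1.2 j else if j = 2 then e.1.2 j else
      if e.1.2 j < b j then e.1.2 j else e.1.2 j - 1) ∨
      e.1.2 j = (if j = e.2 then e.1.2 j else if j = 2 then e.1.2 j else
      if e.1.2 j < b j then e.1.2 j else e.1.2 j - 1) + 1
    rw [if_neg hj, if_neg hj2']
    split_ifs with h5
    · exact Or.inl rfl
    · exact Or.inr (by omega)

end B107

open B107

/-- **(G3b)** -/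
theorem specEdgeB (hF : SpecFaceSec) : SpecEdgeB := by
  intro v n m n₀ hN
  have hD : Dat v n m := ⟨hN.org, hN.hn, hN.hm⟩
  have hI : Part Q1 v (part v n m) := hD.part
  have hQ : P073.Gauge.CxR.Sub v (part v n m) (sqT v n m n₀) :=
    P073.Plate.FaceT.toSub isOpen_Q1 hI (hF v n m n₀ hN)
  -- the core in the grid of generation `g`
  have hcore : ∀ g, n ≤ g → ∃ a b : Fin 3 → ℤ, (∀ k, a k < b k) ∧ core v n = gbox v g a b := by
    intro g hg
    obtain ⟨d, rfl⟩ := Nat.exists_eq_add_of_le hg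
    refine ⟨_, _, fun k => ?_, core_fine v n d⟩
    have h8 := hD.eight
    have hd0 : (0:ℤ) < 2 ^ d := by positivity
    show (2 : ℤ) * 2 ^ d < (2 ^ n - 3) * 2 ^ d
    nlinarith
  have hnm : n ≤ m := by have := hN.hm; omega
  have hnn₀ : n ≤ n₀ := hnm.trans hN.hn₀
  -- every edge of the partition is covered
  have key : ∀ e : Idx × Fin 3, (∃ q ∈ part v n m, EdgeOf e q) → ∀ x ∈ edge v e,
      ∃ e', ∃ s ∈ sqT v n m n₀, EdgeOfSq e' s ∧ edge v e' ⊆ edge v e ∧ x ∈ edge v e' := by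
    intro e he x hx
    obtain ⟨S, -, hS, hcov⟩ := P073.Gauge.CxR.exists_cover isOpen_Q1 hI hQ (e := e) (Or.inl he)
    have hx' := hx
    rw [hcov] at hx'
    obtain ⟨e', h1, h2⟩ := mem_iUnion₂.1 hx'
    obtain ⟨s, hs, hes⟩ := P073.Gauge.CxR.min_edgeOfSq isOpen_Q1 hI hQ (hS e' h1)
    refine ⟨e', s, hs, hes, ?_, h2⟩
    rw [hcov]
    exact subset_biUnion_of_mem (u := fun e => edge v e) h1
  -- edges of generation `m` in the core
  have keym : ∀ e : Idx × Fin 3, e.1.1 = m → edge v e ⊆ core v n →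
      ∃ q ∈ part v n m, EdgeOf e q := by
    intro e he1 he2
    obtain ⟨a, b, hab, hc⟩ := hcore m hnm
    rw [hc] at he2
    obtain ⟨q, h1, h2, h3⟩ := exists_cube hab he1 he2
    exact ⟨q, Or.inr ⟨h1, by rw [hc]; exact h2⟩, h3⟩
  refine ⟨fun e s hs hes => ?_, fun e he x hx => ?_⟩
  · rcases hs with ⟨⟨⟨q, hq, hf⟩, -⟩, -⟩ | ⟨h1, h2, h3, h4⟩
    · have h5 := edgeOf_of_face hf hes
      rcases hq with ⟨hq, -⟩ | ⟨hq, hq'⟩
      · exact Or.inl ⟨q, hq, h5⟩
      · exact Or.inr (Or.inl ⟨h5.1.trans hq, (Gr.edge_subset_dyc h5).trans hq'⟩)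
    · refine Or.inr (Or.inr ⟨hes.1.trans h2, ?_, (edge_sub_squ hes).trans h3, ?_⟩)
      · rw [← h1]
        exact hes.2.1
      · have h5 : pt v e.1.1 e.1.2 2 = pt v s.1.1 s.1.2 2 := by
          have h6 := hes.2.2.2.1
          rw [h1] at h6
          show v 2 + (e.1.2 2 : ℝ) / 2 ^ e.1.1 = v 2 + (s.1.2 2 : ℝ) / 2 ^ s.1.1
          rw [hes.1, h6]
        rw [h5]
        exact h4
  · rcases he with ⟨q, hq, heq⟩ | ⟨he1, he2⟩ | ⟨h1, h2, h3, h4⟩
    · by_cases hc : dyc v q.1 q.2 ⊆ core v n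
      · -- a tile in the core
        have hxq : x ∈ dyc v q.1 q.2 := Gr.edge_subset_dyc heq hx
        have hg : q.1 = n := hD.gen_of_meet hq (hc hxq) hxq
        obtain ⟨⟨g, z⟩, k⟩ := e
        obtain ⟨g', Z⟩ := q
        have hgg : g = g' := heq.1
        subst hgg
        simp only at hg hc hxq
        subst hg
        obtain ⟨d, hd⟩ := Nat.exists_eq_add_of_le hnm
        have hd0 : (0:ℤ) < 2 ^ d := by positivity
        have hZ : dyc v g Z = gbox v m (fun k => Z k * 2 ^ d) (fun k => (Z k + 1) * 2 ^ d) := by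
          rw [dyc_eq_gbox, hd, ← gbox_refine v g d]
        obtain ⟨w, hw1, hw2⟩ := exists_dyc_of_mem_gbox (v := v) (N := m)
          (a := fun k => Z k * 2 ^ d) (b := fun k => (Z k + 1) * 2 ^ d) (fun k => by
            show Z k * 2 ^ d < (Z k + 1) * 2 ^ d
            nlinarith) (by rw [← hZ]; exact hxq)
        rw [← hZ] at hw2
        obtain ⟨w', h5, h6, h7⟩ := Gr.exists_sub_edge heq hw2 hx hw1
        obtain ⟨e', s, h8, h9, h10, h11⟩ := key ((m, w'), k)
          ⟨(m, w), Or.inr ⟨rfl, hw2.trans hc⟩, h5⟩ x h6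
        exact ⟨e', s, h8, h9, h10.trans h7, h11⟩
      · exact key e ⟨q, Or.inl ⟨hq, hc⟩, heq⟩ x hx
    · exact key e (keym e he1 he2) x hx
    · obtain ⟨a, b, hab, hc⟩ := hcore n₀ hnn₀
      rw [hc] at h3
      obtain ⟨s, h5, h6, h7, h8⟩ := exists_squ hab h1 h2 h3
      rw [← hc] at h7
      refine ⟨e, s, Or.inr ⟨h5, h6, h7, ?_⟩, h8, Subset.rfl, hx⟩
      have h9 : pt v e.1.1 e.1.2 2 = pt v s.1.1 s.1.2 2 := by
        have h10 := h8.2.2.2.1
        rw [h5] at h10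
        show v 2 + (e.1.2 2 : ℝ) / 2 ^ e.1.1 = v 2 + (s.1.2 2 : ℝ) / 2 ^ s.1.1
        rw [h8.1, h10]
      rw [← h9]
      exact h4

end P073.GS
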