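import Vale.Agent.P073.GS580.Spec
import Vale.Agent.P073.GBM.Prot527
import Vale.Agent.P073.Gauge.CxT673

/-!
# P073, block SEC2: unions of cubes of the partition are protected sets of `TCx`
(`specProtT : SpecProtT`)
-/

open Set Metric Topology MeasureTheory Filter

namespace P073.GS.G4_907

open Vale.Agent.P073.St (V)
open Vale.Agent.P073.SQ (ev)
open Vale.Agent.P073.AB
open P073.GB73 (Prot)
open P073.Net (dyc dyo)
open P073.Plate (FaceT TCx)
open P073.Gauge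
open P073.GBM (convex_dyc isClosed_dyc convex_squ exists_corner)

variable {Ω : Set V} {v : V} {I : Set Idx} {T : Set (Idx × Fin 3)}

theorem psi_mem (D : TCx Ω v I T) (j : D.J) : D.ψ j ∈ T := by
  have h : D.ψ j ∈ range D.ψ := mem_range_self j
  have h2 := D.rangeψ
  exact h2.subset h

/-- a relative boundary point of a tile is on its boundary curve -/
theorem mem_bd (D : TCx Ω v I T) (j : D.J) {x : V} (hx : x ∈ CxA.sqbd v (D.ψ j)) :
    x ∈ D.K.toCx2.bd j := by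
  obtain ⟨e, he, hxe⟩ := CxA.exists_edgeOfSq hx
  obtain ⟨S, hS⟩ := D.edges e ⟨_, psi_mem D j, he⟩
  have hsub : edge v e ⊆ squ v (D.ψ j) := CxA.edgeOfSq_subset he
  rw [hS] at hxe hsub
  obtain ⟨b, hb, hxb⟩ := mem_iUnion₂.1 hxe
  have hinc : D.inc b j := (D.inc_iff b j).2 ((subset_biUnion_of_mem
    (u := fun b => edge v (D.φ b)) hb).trans hsub)
  refine mem_iUnion₂.2 ⟨b, hinc, ?_⟩
  rw [D.arc b]
  exact hxb

/-- points of edges of the partition are on the net -/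
theorem edge_mem (hΩ : IsOpen Ω) (hI : Part Ω v I) (hT : FaceT v I T) (D : TCx Ω v I T)
    {e : Idx × Fin 3} {q : Idx} (hq : q ∈ I) (he : EdgeOf e q) {x : V} (hx : x ∈ edge v e) :
    x ∈ ⋃ b, D.K.arc b := by
  have hQ := hT.toSub hΩ hI
  obtain ⟨S, -, hmin, hcov⟩ := CxR.exists_cover hΩ hI hQ (e := e) (Or.inl ⟨q, hq, he⟩)
  rw [hcov] at hx
  obtain ⟨e', he', hxe'⟩ := mem_iUnion₂.1 hx
  obtain ⟨s, hs, hes⟩ := CxR.min_edgeOfSq hΩ hI hQ (hmin e' he')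
  obtain ⟨S', hS'⟩ := D.edges e' ⟨s, hs, hes⟩
  rw [hS'] at hxe'
  obtain ⟨b, -, hxb⟩ := mem_iUnion₂.1 hxe'
  refine mem_iUnion.2 ⟨b, ?_⟩
  rw [D.arc b]
  exact hxb

/-- a corner of a cube of the partition is on the net -/
theorem corner_mem (hΩ : IsOpen Ω) (hI : Part Ω v I) (hT : FaceT v I T) (D : TCx Ω v I T)
    {q : Idx} (hq : q ∈ I) {c : Fin 3 → ℤ}
    (hc : ∀ j, c j = q.2 j ∨ c j = q.2 j + 1) : pt v q.1 c ∈ ⋃ b, D.K.arc b := by
  let e : Idx × Fin 3 := ((q.1, Function.update c 0 (q.2 0)), 0)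
  have he1 : ∀ i, i ≠ 0 → e.1.2 i = c i := fun i hi => Function.update_of_ne hi _ _
  have he2 : e.1.2 0 = q.2 0 := by
    show Function.update c 0 (q.2 0) 0 = q.2 0
    simp
  have hedge : EdgeOf e q := by
    refine ⟨rfl, he2, fun i hi => ?_⟩
    rw [he1 i hi]; exact hc i
  have hxe : pt v q.1 c ∈ edge v e := by
    refine Gr.mem_edge.2 ⟨fun i hi => ?_, ?_, ?_⟩
    · rw [he1 i hi]; rfl
    · show v 0 + e.1.2 0 / 2 ^ q.1 ≤ v 0 + c 0 / 2 ^ q.1
      rw [he2]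
      have h1 : (q.2 0 : ℝ) ≤ c 0 := by
        rcases hc 0 with h | h
        · rw [h]
        · rw [h]; push_cast; linarith
      gcongr
    · show v 0 + c 0 / 2 ^ q.1 ≤ v 0 + (e.1.2 0 + 1) / 2 ^ q.1
      rw [he2]
      have h1 : (c 0 : ℝ) ≤ q.2 0 + 1 := by
        rcases hc 0 with h | h
        · rw [h]; linarith
        · rw [h]; push_cast; exact le_rfl
      gcongr
  exact edge_mem hΩ hI hT D hq hedge hxe

/-- the lowest corner of a square is in its relative boundary -/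
theorem low_mem (v : V) (s : Idx × Fin 3) : pt v s.1.1 s.1.2 ∈ CxA.sqbd v s := by
  rw [CxA.mem_sqbd]
  refine ⟨⟨rfl, fun k _ => ⟨le_rfl, ?_⟩⟩, ?_⟩
  · show v k + s.1.2 k / 2 ^ s.1.1 ≤ v k + (s.1.2 k + 1) / 2 ^ s.1.1
    gcongr
    linarith
  · obtain ⟨l, hl⟩ : ∃ l : Fin 3, l ≠ s.2 := exists_ne _
    exact ⟨l, hl, Or.inl rfl⟩

/-- a cube of the partition which meets a tile meets its boundary curve -/
theorem meets_bd (hΩ : IsOpen Ω) (hI : Part Ω v I) (hT : FaceT v I T) (D : TCx Ω v I T) {q : Idx}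
    (hq : q ∈ I) (j : D.J) {x : V} (hx : x ∈ dyc v q.1 q.2) (hxj : x ∈ squ v (D.ψ j)) :
    (dyc v q.1 q.2 ∩ squ v (D.ψ j) ∩ D.K.toCx2.bd j).Nonempty := by
  by_cases hb : x ∈ CxA.sqbd v (D.ψ j)
  · exact ⟨x, ⟨hx, hxj⟩, mem_bd D j hb⟩
  · have hrel : x ∈ P86.rel v (D.ψ j) := by
      by_contra hn
      exact hb ⟨hxj, hn⟩
    obtain ⟨t, ht, hk, hsub⟩ := hT.sub _ (psi_mem D j)
    obtain ⟨qp, qm, htwo⟩ := P86.two_of_minSq hΩ hI ht
    have h2 : x ∈ P86.rel v t := CxR.rel_mono hk.symm hsub hrel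
    have h3 : squ v t ⊆ dyc v q.1 q.2 := by
      rcases P86.rel_mem hI htwo h2 hq hx with rfl | rfl
      · exact P86.squ_sub_hi.trans htwo.subp
      · exact P86.squ_sub_lo.trans htwo.subm
    have h4 := low_mem v (D.ψ j)
    exact ⟨_, ⟨h3 (hsub h4.1), h4.1⟩, mem_bd D j h4⟩

end P073.GS.G4_907

namespace P073.GS

open Vale.Agent.P073.St (V)
open Vale.Agent.P073.SQ (ev)
open Vale.Agent.P073.AB
open P073.GB73 (Prot)
open P073.Net (dyc dyo)
open P073.Plate (FaceT TCx)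
open P073.Gauge
open P073.GBM (convex_dyc isClosed_dyc convex_squ exists_corner)
open G4_907

/-- **(G4)** -/
theorem specProtT : SpecProtT := by
  intro Ω v I T hΩ hI hT D I' hI'
  refine ⟨iUnion₂_subset fun q hq => hI.sub q (hI' hq), ?_, ?_, ?_⟩
  · intro x hx hcl
    obtain ⟨r, hr, hrΩ⟩ := Metric.nhds_basis_closedBall.mem_iff.1 (hΩ.mem_nhds hx)
    have hfin := hI.fin (closedBall x r) hrΩ (isCompact_closedBall x r)
    have h1 : x ∈ closure (⋃ q ∈ {q | q ∈ I' ∧ (dyc v q.1 q.2 ∩ closedBall x r).Nonempty},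
        dyc v q.1 q.2) := by
      rw [mem_closure_iff_nhds] at hcl ⊢
      intro t ht
      obtain ⟨y, ⟨hyt, hyb⟩, hy⟩ := hcl (t ∩ closedBall x r)
        (inter_mem ht (closedBall_mem_nhds x hr))
      obtain ⟨q, hq, hyq⟩ := mem_iUnion₂.1 hy
      exact ⟨y, hyt, mem_biUnion (show q ∈ {q | q ∈ I' ∧
        (dyc v q.1 q.2 ∩ closedBall x r).Nonempty} from ⟨hq, y, hyq, hyb⟩) hyq⟩
    have h2 : {q | q ∈ I' ∧ (dyc v q.1 q.2 ∩ closedBall x r).Nonempty}.Finite :=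
      hfin.subset fun q hq => ⟨hI' hq.1, hq.2⟩
    rw [(h2.isClosed_biUnion fun q _ => isClosed_dyc v q.1 q.2).closure_eq] at h1
    obtain ⟨q, hq, hxq⟩ := mem_iUnion₂.1 h1
    exact mem_biUnion hq.1 hxq
  · rintro j z ⟨hz, hzj⟩
    obtain ⟨q, hq, hzq⟩ := mem_iUnion₂.1 hz
    rw [D.tile j] at hzj ⊢
    exact ⟨dyc v q.1 q.2 ∩ squ v (D.ψ j),
      ((convex_dyc v q.1 q.2).inter (convex_squ v _)).isPreconnected,
      inter_subset_inter_left _ (subset_biUnion_of_mem (u := fun q : Idx => dyc v q.1 q.2) hq),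
      ⟨hzq, hzj⟩, meets_bd hΩ hI hT D (hI' hq) j hzq hzj⟩
  · rintro c z ⟨hz, hzc⟩
    obtain ⟨q, hq, hzq⟩ := mem_iUnion₂.1 hz
    rw [D.cell c] at hzc ⊢
    refine ⟨dyc v q.1 q.2 ∩ dyc v c.1.1 c.1.2,
      ((convex_dyc v q.1 q.2).inter (convex_dyc v _ _)).isPreconnected,
      inter_subset_inter_left _ (subset_biUnion_of_mem (u := fun q : Idx => dyc v q.1 q.2) hq),
      ⟨hzq, hzc⟩, ?_⟩
    rcases le_total q.1 c.1.1 with hle | hle
    · obtain ⟨k, hk, hk'⟩ := exists_corner hle hzc hzq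
      exact ⟨_, hk'.symm, corner_mem hΩ hI hT D c.2 hk⟩
    · obtain ⟨k, hk, hk'⟩ := exists_corner hle hzq hzc
      exact ⟨_, hk', corner_mem hΩ hI hT D (hI' hq) hk⟩

end P073.GS
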