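import Vale.Agent.P073.GS580.G2_308

/-!
# P073, block SEC2, `SpecLone` (helper308)
-/

open Set Metric Topology MeasureTheory Filter

namespace P073.GS

open Vale.Agent.P073.St (V)
open Vale.Agent.P073.AB
open Vale.Agent.P073.AB.S308
open Vale.Agent.P073.AB.P86
open Vale.Agent.P073.LOC (Q1 core mid part IsMid FineE NetE sqT plq IC IO)
open Vale.Agent.P073.LOC.G308
open P073.Net (dyc dyo)
open P073.Plate (FaceT pbox prel)

/-- **(G5)** -/
theorem specLone : SpecLone := by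
  intro v n m n₀ n₂ z w h hm2 h20 hc hm hbox
  have hlt := (G2.Num.dat h).lt
  obtain ⟨D, hD⟩ := Nat.exists_eq_add_of_le hm2
  obtain ⟨d, hd⟩ := Nat.exists_eq_add_of_le hlt.le
  have hDp : (0:ℤ) < 2 ^ D := by positivity
  have hp : (0:ℝ) < 1 / 2 ^ n₂ := by positivity
  -- the plate is in the `m`-square
  have hsub : squ v (plq n₂ z) ⊆ squ v ((m, w), 2) := by
    refine Subset.trans ?_ hbox
    rintro x ⟨hx1, hx2⟩
    refine ⟨?_, fun i hi => ?_⟩
    · rw [hx1, sub_self, abs_zero]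
    · obtain ⟨c1, c2⟩ := hx2 i hi
      have e : (plq n₂ z).1.1 = n₂ := rfl
      constructor <;> linarith
  -- the cube above the plate is in the core
  have hcube : dyc v n₂ z ⊆ core v n := by
    obtain ⟨y, hy1, hy2, hy⟩ := hm
    simp only [pt, mid, add_right_inj] at hy
    refine G2.hi_in_core (s := ((n₂, z), 2)) (by simp only; omega) hc ?_
    show (z 2 : ℝ) / 2 ^ n₂ < _
    rw [hy, pow_succ, div_lt_div_iff₀ (by positivity) (by positivity)]
    have : (y:ℝ) + 1 ≤ 2 ^ n - 3 := by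
      have : y + 1 ≤ 2 ^ n - 3 := by omega
      exact_mod_cast this
    have h2 : (0:ℝ) < 2 ^ n := by positivity
    push_cast
    nlinarith
  have hcube' : dyc v m (anc D z) ⊆ core v n := by
    rw [core_fine v n d, ← hd] at hcube ⊢
    apply anc_sub_gbox
    rw [← hD]
    exact hcube
  have hw : w = anc D z := by
    have h1 : (fun k => v k + z k / 2 ^ n₂ : V) ∈ squ v (plq n₂ z) :=
      ⟨rfl, fun j _ => ⟨le_rfl, by
        show v j + (z j : ℝ) / 2 ^ n₂ ≤ v j + ((z j : ℝ) + 1) / 2 ^ n₂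
        rw [P86.div_add_one]; linarith⟩⟩
    have h2 : (fun k => if k = 2 then v k + z k / 2 ^ n₂ else
        v k + (z k + 1) / 2 ^ n₂ : V) ∈ squ v (plq n₂ z) := by
      refine ⟨by simp [plq], fun j hj => ?_⟩
      have hj' : j ≠ 2 := hj
      simp only [if_neg hj']
      exact ⟨by
        show v j + (z j : ℝ) / 2 ^ n₂ ≤ v j + ((z j : ℝ) + 1) / 2 ^ n₂
        rw [P86.div_add_one]; linarith, le_rfl⟩
    have a1 := hsub h1
    have a2 := hsub h2
    have hsc : ∀ c : ℤ, ((c * 2 ^ D : ℤ) : ℝ) / 2 ^ n₂ = c / 2 ^ m := by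
      intro c
      rw [hD]
      push_cast
      rw [pow_add]
      field_simp
    funext k
    simp only [anc]
    by_cases hk : k = 2
    · subst hk
      have c : v 2 + (z 2 : ℝ) / 2 ^ n₂ = v 2 + (w 2 : ℝ) / 2 ^ m := a1.1
      rw [← hsc (w 2), add_right_inj] at c
      have h4 : (0:ℝ) < 2 ^ n₂ := by positivity
      have h5 := (div_left_inj' h4.ne').1 c
      have h6 : z 2 = w 2 * 2 ^ D := by exact_mod_cast h5
      rw [h6]
      exact (Int.mul_ediv_cancel _ hDp.ne').symm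
    · have c1 : v k + (w k : ℝ) / 2 ^ m ≤ v k + (z k : ℝ) / 2 ^ n₂ := (a1.2 k hk).1
      have c2 := (a2.2 k hk).2
      simp only [if_neg hk] at c2
      have c3 : ((z k + 1 : ℤ) : ℝ) / 2 ^ n₂ ≤ (((w k + 1) * 2 ^ D : ℤ) : ℝ) / 2 ^ n₂ := by
        rw [hsc (w k + 1)]
        push_cast
        have c2' : v k + ((z k : ℝ) + 1) / 2 ^ n₂ ≤ v k + ((w k : ℝ) + 1) / 2 ^ m := c2
        linarith
      have c4 : ((w k * 2 ^ D : ℤ) : ℝ) / 2 ^ n₂ ≤ (z k : ℝ) / 2 ^ n₂ := by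
        rw [hsc (w k)]
        linarith
      rw [cast_div_le] at c3 c4
      apply le_antisymm
      · exact Int.le_ediv_of_mul_le hDp c4
      · have : z k / 2 ^ D < w k + 1 := Int.ediv_lt_of_lt_mul hDp (by omega)
        omega
  have hwc : dyc v m w ⊆ core v n := by rw [hw]; exact hcube'
  refine ⟨G2.min_of_IC h hwc 2, ?_, ?_⟩
  · rintro ⟨⟨g, u⟩, k⟩ hg hk ⟨y, hy1, hy2⟩
    simp only at hg hk
    subst hg hk
    have hheight : (u 2 : ℝ) / 2 ^ g = z 2 / 2 ^ n₂ := by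
      have b1 : y 2 = v 2 + (u 2 : ℝ) / 2 ^ g := hy1.1
      have b2 : y 2 = v 2 + (z 2 : ℝ) / 2 ^ n₂ := hy2.1
      linarith
    have hin : squ v ((g, u), 2) ⊆ pbox v (plq n₂ z) (-(1 / 2 ^ n₂)) 0 := by
      rintro x ⟨hx1, hx2⟩
      refine ⟨?_, fun i hi => ?_⟩
      · have b1 : x 2 = v 2 + (u 2 : ℝ) / 2 ^ g := hx1
        have : x 2 - (v 2 + (z 2 : ℝ) / 2 ^ n₂) = 0 := by rw [b1, hheight]; ring
        show |x 2 - (v 2 + (z 2 : ℝ) / 2 ^ n₂)| ≤ 0
        rw [this, abs_zero]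
      · have hi' : i ≠ 2 := hi
        obtain ⟨b1, b2⟩ : v i + (u i : ℝ) / 2 ^ g ≤ x i ∧ x i ≤ v i + ((u i : ℝ) + 1) / 2 ^ g :=
          hx2 i hi'
        obtain ⟨b3, b4⟩ : v i + (u i : ℝ) / 2 ^ g ≤ y i ∧ y i ≤ v i + ((u i : ℝ) + 1) / 2 ^ g :=
          hy1.2 i hi'
        obtain ⟨b5, b6⟩ : v i + (z i : ℝ) / 2 ^ n₂ ≤ y i ∧ y i ≤ v i + ((z i : ℝ) + 1) / 2 ^ n₂ :=
          hy2.2 i hi'
        have b7 : ((u i : ℝ) + 1) / 2 ^ g = u i / 2 ^ g + 1 / 2 ^ g := add_div _ _ _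
        have b8 : (1:ℝ) / 2 ^ g ≤ 1 / 2 ^ n₂ := by
          apply one_div_le_one_div_of_le (by positivity)
          exact pow_le_pow_right₀ (by norm_num) h20
        show v i + (z i : ℝ) / 2 ^ n₂ + -(1 / 2 ^ n₂) ≤ x i ∧
          x i ≤ v i + ((z i : ℝ) + 1) / 2 ^ n₂ - -(1 / 2 ^ n₂)
        constructor <;> linarith
    refine Or.inr ⟨rfl, rfl, ((hin.trans hbox).trans squ_sub_hi).trans hwc, ?_⟩
    have : pt v g u 2 = pt v n₂ z 2 := by
      simp only [pt]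
      rw [hheight]
    show IsMid v n (pt v g u 2)
    rw [this]
    exact hm
  · intro z' _ _ hne
    rw [Set.disjoint_left]
    rintro x ⟨hx1, hx2⟩ ⟨hx3, hx4⟩
    apply hne
    have h4 : (0:ℝ) < 2 ^ n₂ := by positivity
    funext k
    by_cases hk : k = 2
    · subst hk
      have b1 : x 2 = v 2 + (z 2 : ℝ) / 2 ^ n₂ := hx1
      have b2 : x 2 = v 2 + (z' 2 : ℝ) / 2 ^ n₂ := hx3
      have b3 : (z 2 : ℝ) / 2 ^ n₂ = z' 2 / 2 ^ n₂ := by linarith
      have h5 := (div_left_inj' h4.ne').1 b3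
      exact_mod_cast h5
    · obtain ⟨b1, b2⟩ : v k + (z k : ℝ) / 2 ^ n₂ ≤ x k ∧ x k ≤ v k + ((z k : ℝ) + 1) / 2 ^ n₂ :=
        hx2 k hk
      obtain ⟨b3, b4⟩ : v k + (z' k : ℝ) / 2 ^ n₂ + 0 < x k ∧
          x k < v k + ((z' k : ℝ) + 1) / 2 ^ n₂ - 0 := hx4 k hk
      have c1 : (z' k : ℝ) / 2 ^ n₂ < ((z k + 1 : ℤ) : ℝ) / 2 ^ n₂ := by push_cast; linarith
      have c2 : (z k : ℝ) / 2 ^ n₂ < ((z' k + 1 : ℤ) : ℝ) / 2 ^ n₂ := by push_cast; linarith
      rw [cast_div_lt] at c1 c2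
      omega

end P073.GS
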