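import Vale.Agent.P073.GS580.Comp
import Vale.Agent.P073.GS580.G2_308
import Vale.Agent.P073.GS580.G3b_107
import Vale.Agent.P073.GS580.G4_907
import Vale.Agent.P073.GS580.G5_308
import Vale.Agent.P073.GS580.A2_407
import Vale.Agent.P073.Gauge.CxT673
import Vale.Agent.P073.SMF.Main
import Vale.Agent.P073.SM.Final

/-!
# P073, block SEC2: `SpecGaugeSec2` from NET with closeness and GB in one plate
-/

namespace P073.GS

open P073.Plate

theorem specGaugeSec2_of_net (hN : P073.Top.NetOutN) (hPl : SpecPlate) :
    Vale.Agent.P073.LOC.SpecGaugeSec2 :=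
  specGaugeSec2_of hN (specPlatesOf hPl) (P073.SMF.specSmooth P073.SM.specSM) specCxT
    specFaceSec (specEdgeB specFaceSec) specProtT specLone
    (specPlateHyp (specEdgeB specFaceSec) specLone)

end P073.GS
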