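import Vale.Agent.P073.GS580.Spec
import Vale.Agent.P073.GBM.Prot527
import Vale.Agent.P073.Gauge.CxT673

/-!
# P073, block SEC2, (G4): unions of cubes of the partition are protected, for `TCx`

The model is `GBM/Prot527.lean` (`P073.GBM.prot`, for `DyCx`).
-/

open Set Metric Topology MeasureTheory Filter

namespace P073.GS422

open Vale.Agent.P073.St (V)
open Vale.Agent.P073.SQ (ev)
open Vale.Agent.P073.AB
open Vale.Agent.P073.LOC (Q1 core mid part IsMid FineE NetE sqT plq)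
open P073.GB73 (Prot)
open P073.Net (dyc dyo)
open P073.Plate (FaceT TCx pbox prel)

namespace ProtT

open P073.GBM (dy_cases exists_end convex_dyc isClosed_dyc convex_squ exists_corner)

private theorem exists_third' : ∀ k l : Fin 3, k ≠ l →
    ∃ d, d ≠ k ∧ d ≠ l ∧ ∀ j, j = k ∨ j = l ∨ j = d := by
  decide

variable {Ω : Set V} {v : V} {I : Set Idx} {T : Set (Idx × Fin 3)}

/-- inclusion of parallel squares reverses the generation -/
theorem gen_squ' {s t : Idx × Fin 3} (hk : s.2 = t.2) (h : squ v s ⊆ squ v t) :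
    t.1.1 ≤ s.1.1 := by
  obtain ⟨-, h2⟩ := P86.squ_ineq hk h
  obtain ⟨l, hl⟩ : ∃ l : Fin 3, l ≠ t.2 := exists_ne _
  obtain ⟨h3, h4⟩ := h2 l hl
  rw [add_div] at h4
  rw [add_div] at h4
  have h5 : (1 : ℝ) / 2 ^ s.1.1 ≤ 1 / 2 ^ t.1.1 := by linarith
  rw [one_div_le_one_div (by positivity) (by positivity)] at h5
  by_contra hcon
  push Not at hcon
  exact absurd h5 (not_le.2 (pow_lt_pow_right₀ (by norm_num) hcon))

/-- the points of an edge of a square of `T` are on the arcs -/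
theorem edge_arcs (D : TCx Ω v I T) {e : Idx × Fin 3} (he : ∃ s ∈ T, EdgeOfSq e s) {x : V}
    (hx : x ∈ edge v e) : ∃ b, x ∈ edge v (D.φ b) ∧ edge v (D.φ b) ⊆ edge v e := by
  obtain ⟨S, hS⟩ := D.edges e he
  have hx' := hx
  rw [hS] at hx'
  obtain ⟨b, hb, hxb⟩ := mem_iUnion₂.1 hx'
  refine ⟨b, hxb, ?_⟩
  rw [hS]
  exact subset_biUnion_of_mem (u := fun b => edge v (D.φ b)) hb

/-- a relative boundary point of a tile is on its boundary curve -/
theorem mem_bd (D : TCx Ω v I T) (j : D.J) {x : V} (hx : x ∈ squ v (D.ψ j)) {l : Fin 3}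
    (hl : l ≠ (D.ψ j).2)
    (hxl : x l = v l + (D.ψ j).1.2 l / 2 ^ (D.ψ j).1.1 ∨
      x l = v l + ((D.ψ j).1.2 l + 1) / 2 ^ (D.ψ j).1.1) : x ∈ D.K.toCx2.bd j := by
  have hsT : D.ψ j ∈ T := D.rangeψ.subset (mem_range_self j)
  set s := D.ψ j with hs
  obtain ⟨d, hdk, hdl, hall⟩ := exists_third' s.2 l hl.symm
  obtain ⟨c, hc, hxc⟩ : ∃ c : ℤ, (c = s.1.2 l ∨ c = s.1.2 l + 1) ∧ x l = v l + c / 2 ^ s.1.1 := by
    rcases hxl with h | h
    · exact ⟨_, Or.inl rfl, h⟩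
    · exact ⟨_, Or.inr rfl, by push_cast; exact h⟩
  -- the edge
  let e : Idx × Fin 3 := ((s.1.1, Function.update s.1.2 l c), d)
  have he1 : ∀ i, i ≠ l → e.1.2 i = s.1.2 i := fun i hi => Function.update_of_ne hi _ _
  have he2 : e.1.2 l = c := Function.update_self _ _ _
  have hedge : EdgeOfSq e s := by
    refine ⟨rfl, hdk, he1 d hdl, he1 _ hl.symm, fun i hi hi' => ?_⟩
    rcases hall i with h | h | h
    · exact absurd h hi'
    · rw [h, he2]; exact hc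
    · exact absurd h hi
  have hxe : x ∈ edge v e := by
    refine Gr.mem_edge.2 ⟨fun i hi => ?_, ?_, ?_⟩
    · rcases hall i with h | h | h
      · rw [h, he1 _ hl.symm]; exact hx.1
      · rw [h, he2]; exact hxc
      · exact absurd h hi
    · show v d + e.1.2 d / 2 ^ s.1.1 ≤ x d
      rw [he1 d hdl]
      exact (hx.2 d hdk).1
    · show x d ≤ v d + (e.1.2 d + 1) / 2 ^ s.1.1
      rw [he1 d hdl]
      exact (hx.2 d hdk).2
  obtain ⟨b, hxb, hsub⟩ := edge_arcs D ⟨s, hsT, hedge⟩ hxe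
  have hinc : D.inc b j :=
    (D.inc_iff b j).2 (hsub.trans (P073.Gauge.CxR.edgeOfSq_subset hedge))
  refine mem_iUnion₂.2 ⟨b, hinc, ?_⟩
  rw [D.arc b]
  exact hxb

/-- a corner of a cube of the partition is on the net -/
theorem corner_mem (hΩ : IsOpen Ω) (hI : Part Ω v I) (hT : FaceT v I T) (D : TCx Ω v I T)
    {q : Idx} (hq : q ∈ I) {c : Fin 3 → ℤ}
    (hc : ∀ j, c j = q.2 j ∨ c j = q.2 j + 1) : pt v q.1 c ∈ ⋃ b, D.K.arc b := by
  let e : Idx × Fin 3 := ((q.1, Function.update c 0 (q.2 0)), 0)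
  have he1 : ∀ i, i ≠ 0 → e.1.2 i = c i := fun i hi => Function.update_of_ne hi _ _
  have he2 : e.1.2 0 = q.2 0 := by
    show Function.update c 0 (q.2 0) 0 = q.2 0
    simp
  have hedge : EdgeOf e q := by
    refine ⟨rfl, he2, fun i hi => ?_⟩
    rw [he1 i hi]; exact hc i
  have hxe : pt v q.1 c ∈ edge v e := by
    refine Gr.mem_edge.2 ⟨fun i hi => ?_, ?_, ?_⟩
    · rw [he1 i hi]; rfl
    · show v 0 + e.1.2 0 / 2 ^ q.1 ≤ v 0 + c 0 / 2 ^ q.1
      rw [he2]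
      have h1 : (q.2 0 : ℝ) ≤ c 0 := by
        rcases hc 0 with h | h
        · rw [h]
        · rw [h]; push_cast; linarith
      gcongr
    · show v 0 + c 0 / 2 ^ q.1 ≤ v 0 + (e.1.2 0 + 1) / 2 ^ q.1
      rw [he2]
      have h1 : (c 0 : ℝ) ≤ q.2 0 + 1 := by
        rcases hc 0 with h | h
        · rw [h]; linarith
        · rw [h]; push_cast; exact le_rfl
      gcongr
  have hQ := hT.toSub hΩ hI
  obtain ⟨S, -, hS, hcov⟩ := P073.Gauge.CxR.exists_cover hΩ hI hQ (e := e)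
    (Or.inl ⟨q, hq, hedge⟩)
  rw [hcov] at hxe
  obtain ⟨e', he', hxe'⟩ := mem_iUnion₂.1 hxe
  obtain ⟨b, hxb, -⟩ := edge_arcs D (P073.Gauge.CxR.min_edgeOfSq hΩ hI hQ (hS e' he')) hxe'
  refine mem_iUnion.2 ⟨b, ?_⟩
  rw [D.arc b]
  exact hxb

/-- a cube of the partition which meets a tile meets its boundary curve -/
theorem meets_bd (hT : FaceT v I T) (D : TCx Ω v I T) {q : Idx} (hq : q ∈ I) (j : D.J) {x : V}
    (hx : x ∈ dyc v q.1 q.2) (hxj : x ∈ squ v (D.ψ j)) :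
    (dyc v q.1 q.2 ∩ squ v (D.ψ j) ∩ D.K.toCx2.bd j).Nonempty := by
  have hsT : D.ψ j ∈ T := D.rangeψ.subset (mem_range_self j)
  set s := D.ψ j with hs
  obtain ⟨t, hmin, hts, hst⟩ := hT.sub s hsT
  have hgen : t.1.1 ≤ s.1.1 := gen_squ' hts.symm hst
  rcases le_or_gt q.1 s.1.1 with hg | hg
  · -- the cube is larger: a corner of the square is in the cube
    have key : ∀ l, l ≠ s.2 → ∃ c : ℤ, (c = s.1.2 l ∨ c = s.1.2 l + 1) ∧
        (q.2 l : ℝ) / 2 ^ q.1 ≤ c / 2 ^ s.1.1 ∧ (c : ℝ) / 2 ^ s.1.1 ≤ (q.2 l + 1) / 2 ^ q.1 := by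
      intro l hl
      obtain ⟨h1, h2⟩ := hxj.2 l hl
      obtain ⟨h3, h4⟩ := hx l
      exact exists_end hg (x := x l - v l) (by linarith) (by linarith) (by linarith) (by linarith)
    have key' : ∀ l, ∃ c : ℤ, (l = s.2 → c = s.1.2 l) ∧ (l ≠ s.2 → (c = s.1.2 l ∨ c = s.1.2 l + 1) ∧
        (q.2 l : ℝ) / 2 ^ q.1 ≤ c / 2 ^ s.1.1 ∧ (c : ℝ) / 2 ^ s.1.1 ≤ (q.2 l + 1) / 2 ^ q.1) := by
      intro l
      by_cases hl : l = s.2
      · exact ⟨_, fun _ => rfl, fun h => absurd hl h⟩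
      · obtain ⟨c, hc⟩ := key l hl
        exact ⟨c, fun h => absurd h hl, fun _ => hc⟩
    choose c hc1 hc2 using key'
    have hp : pt v s.1.1 c ∈ squ v s := by
      refine ⟨?_, fun l hl => ?_⟩
      · show v s.2 + c s.2 / 2 ^ s.1.1 = _
        rw [hc1 s.2 rfl]
      · show v l + s.1.2 l / 2 ^ s.1.1 ≤ v l + c l / 2 ^ s.1.1 ∧
          v l + c l / 2 ^ s.1.1 ≤ v l + (s.1.2 l + 1) / 2 ^ s.1.1
        rcases (hc2 l hl).1 with h | h
        · rw [h]; exact ⟨le_rfl, by gcongr; linarith⟩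
        · rw [h]; push_cast; exact ⟨by gcongr; linarith, le_rfl⟩
    obtain ⟨l, hl⟩ : ∃ l : Fin 3, l ≠ s.2 := exists_ne _
    refine ⟨pt v s.1.1 c, ⟨fun i => ?_, hp⟩, mem_bd D j hp hl ?_⟩
    · by_cases hi : i = s.2
      · have h1 : pt v s.1.1 c i = x i := by
          rw [hi, hxj.1]
          show v s.2 + c s.2 / 2 ^ s.1.1 = _
          rw [hc1 s.2 rfl]
        rw [h1]; exact hx i
      · show v i + q.2 i / 2 ^ q.1 ≤ v i + c i / 2 ^ s.1.1 ∧
          v i + c i / 2 ^ s.1.1 ≤ v i + (q.2 i + 1) / 2 ^ q.1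
        exact ⟨by linarith [(hc2 i hi).2.1], by linarith [(hc2 i hi).2.2]⟩
    · rcases (hc2 l hl).1 with h | h
      · left
        show v l + c l / 2 ^ s.1.1 = _
        rw [h]
      · right
        show v l + c l / 2 ^ s.1.1 = _
        rw [h]; push_cast; rfl
  · -- the cube is smaller: it touches in some coordinate, otherwise the square around the tile is
    -- not minimal
    by_cases htouch : ∃ l, l ≠ s.2 ∧ (x l = v l + s.1.2 l / 2 ^ s.1.1 ∨
        x l = v l + (s.1.2 l + 1) / 2 ^ s.1.1)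
    · obtain ⟨l, hl, hxl⟩ := htouch
      exact ⟨x, ⟨hx, hxj⟩, mem_bd D j hxj hl hxl⟩
    · exfalso
      push Not at htouch
      have hnest : ∀ l, l ≠ s.2 → (s.1.2 l : ℝ) / 2 ^ s.1.1 ≤ q.2 l / 2 ^ q.1 ∧
          ((q.2 l : ℝ) + 1) / 2 ^ q.1 ≤ (s.1.2 l + 1) / 2 ^ s.1.1 := by
        intro l hl
        obtain ⟨h1, h2⟩ := hxj.2 l hl
        obtain ⟨h3, h4⟩ := hx l
        obtain ⟨h5, h6⟩ := htouch l hl
        rcases dy_cases hg.le (x := x l - v l) (a := q.2 l) (b := s.1.2 l) (by linarith)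
          (by linarith) (by linarith) (by linarith) with h | h | h
        · exact h
        · exact absurd (by linarith) h5
        · exact absurd (by linarith) h6
      -- the plane of the square is a face plane of the cube
      obtain ⟨k, hk⟩ := Nat.exists_eq_add_of_lt hg
      set N : ℤ := 2 ^ (k + 1) with hN
      have e1 : ∀ c : ℝ, c / 2 ^ s.1.1 = (c * N) / 2 ^ q.1 := by
        intro c
        have : q.1 = s.1.1 + (k + 1) := by omega
        rw [this, pow_add, hN]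
        push_cast
        field_simp
      have hq1 : (0 : ℝ) < 2 ^ q.1 := by positivity
      obtain ⟨h3, h4⟩ := hx s.2
      rw [hxj.1, e1] at h3 h4
      have h5 : (q.2 s.2 : ℝ) ≤ s.1.2 s.2 * N := by
        have : (q.2 s.2 : ℝ) / 2 ^ q.1 ≤ (s.1.2 s.2 * N) / 2 ^ q.1 := by linarith
        rwa [div_le_div_iff_of_pos_right hq1] at this
      have h6 : (s.1.2 s.2 * N : ℝ) ≤ q.2 s.2 + 1 := by
        have : (s.1.2 s.2 * N : ℝ) / 2 ^ q.1 ≤ (q.2 s.2 + 1) / 2 ^ q.1 := by linarith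
        rwa [div_le_div_iff_of_pos_right hq1] at this
      have h5' : q.2 s.2 ≤ s.1.2 s.2 * N := by exact_mod_cast h5
      have h6' : s.1.2 s.2 * N ≤ q.2 s.2 + 1 := by exact_mod_cast h6
      have h7 : s.1.2 s.2 * N = q.2 s.2 ∨ s.1.2 s.2 * N = q.2 s.2 + 1 := by omega
      let s' : Idx × Fin 3 := ((q.1, Function.update q.2 s.2 (s.1.2 s.2 * N)), s.2)
      have g1 : ∀ i, i ≠ s.2 → s'.1.2 i = q.2 i := fun i hi => Function.update_of_ne hi _ _
      have g2 : s'.1.2 s.2 = s.1.2 s.2 * N := Function.update_self _ _ _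
      refine hmin.2 s' ⟨q, hq, rfl, ?_, fun i hi => g1 i hi⟩ (hgen.trans_lt hg) hts.symm
        (Subset.trans ?_ hst)
      · show s'.1.2 s.2 = q.2 s.2 ∨ s'.1.2 s.2 = q.2 s.2 + 1
        rw [g2]; exact h7
      · rintro y ⟨hy1, hy2⟩
        refine ⟨?_, fun i hi => ?_⟩
        · have : y s.2 = v s.2 + s'.1.2 s.2 / 2 ^ q.1 := hy1
          rw [this, g2, e1]
          push_cast
          rfl
        · obtain ⟨h8, h9⟩ := hy2 i hi
          rw [g1 i hi] at h8 h9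
          have h10 : v i + q.2 i / 2 ^ q.1 ≤ y i := h8
          have h11 : y i ≤ v i + (q.2 i + 1) / 2 ^ q.1 := h9
          obtain ⟨h12, h13⟩ := hnest i hi
          exact ⟨by linarith, by linarith⟩

/-- a union of cubes of the partition is a protected set of `TCx` -/
theorem prot (hΩ : IsOpen Ω) (hI : Part Ω v I) (hT : FaceT v I T) (D : TCx Ω v I T)
    {I' : Set Idx} (hI' : I' ⊆ I) : Prot D.K (⋃ q ∈ I', dyc v q.1 q.2) where
  sub := iUnion₂_subset fun q hq => hI.sub q (hI' hq)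
  closed := by
    intro x hx hcl
    obtain ⟨r, hr, hrΩ⟩ := Metric.nhds_basis_closedBall.mem_iff.1 (hΩ.mem_nhds hx)
    have hfin := hI.fin (closedBall x r) hrΩ (isCompact_closedBall x r)
    have h1 : x ∈ closure (⋃ q ∈ {q | q ∈ I' ∧ (dyc v q.1 q.2 ∩ closedBall x r).Nonempty},
        dyc v q.1 q.2) := by
      rw [mem_closure_iff_nhds] at hcl ⊢
      intro t ht
      obtain ⟨y, ⟨hyt, hyb⟩, hy⟩ := hcl (t ∩ closedBall x r)
        (inter_mem ht (closedBall_mem_nhds x hr))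
      obtain ⟨q, hq, hyq⟩ := mem_iUnion₂.1 hy
      exact ⟨y, hyt, mem_biUnion (show q ∈ {q | q ∈ I' ∧
        (dyc v q.1 q.2 ∩ closedBall x r).Nonempty} from ⟨hq, y, hyq, hyb⟩) hyq⟩
    have h2 : {q | q ∈ I' ∧ (dyc v q.1 q.2 ∩ closedBall x r).Nonempty}.Finite :=
      hfin.subset fun q hq => ⟨hI' hq.1, hq.2⟩
    rw [(h2.isClosed_biUnion fun q _ => isClosed_dyc v q.1 q.2).closure_eq] at h1
    obtain ⟨q, hq, hxq⟩ := mem_iUnion₂.1 h1
    exact mem_biUnion hq.1 hxq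
  tile := by
    rintro j z ⟨hz, hzj⟩
    obtain ⟨q, hq, hzq⟩ := mem_iUnion₂.1 hz
    rw [D.tile j] at hzj ⊢
    refine ⟨dyc v q.1 q.2 ∩ squ v (D.ψ j),
      ((convex_dyc v q.1 q.2).inter (convex_squ v _)).isPreconnected,
      inter_subset_inter_left _ (subset_biUnion_of_mem (u := fun q : Idx => dyc v q.1 q.2) hq),
      ⟨hzq, hzj⟩, meets_bd hT D (hI' hq) j hzq hzj⟩
  cell := by
    rintro c z ⟨hz, hzc⟩
    obtain ⟨q, hq, hzq⟩ := mem_iUnion₂.1 hz
    rw [D.cell c] at hzc ⊢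
    refine ⟨dyc v q.1 q.2 ∩ dyc v c.1.1 c.1.2,
      ((convex_dyc v q.1 q.2).inter (convex_dyc v _ _)).isPreconnected,
      inter_subset_inter_left _ (subset_biUnion_of_mem (u := fun q : Idx => dyc v q.1 q.2) hq),
      ⟨hzq, hzc⟩, ?_⟩
    rcases le_total q.1 c.1.1 with hle | hle
    · obtain ⟨k, hk, hk'⟩ := exists_corner hle hzc hzq
      exact ⟨_, hk'.symm, corner_mem hΩ hI hT D c.2 hk⟩
    · obtain ⟨k, hk, hk'⟩ := exists_corner hle hzq hzc
      exact ⟨_, hk', corner_mem hΩ hI hT D (hI' hq) hk⟩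

end ProtT

/-- **(G4)** -/
theorem specProtT : P073.GS.SpecProtT := fun _ _ _ _ hΩ hI hT D _ hI' =>
  ProtT.prot hΩ hI hT D hI'

end P073.GS422
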