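import Vale.Agent.P073.GS580.En

/-!
# P073, block SEC2, `SpecGaugeSec2`: NET on the dyadic edges of the net
-/

open Set Metric Topology MeasureTheory Filter
open scoped ENNReal

namespace P073.GS

open Vale.Agent.P073.St (V Mat euc IsHomeo)
open Vale.Agent.P073.SQ (ev)
open Vale.Agent.P073.AB
open Vale.Agent.P073.HB (GoodSeg)
open P073.Gauge (gam dvar)
open P073.PLS (Rat3)
open P073.Top (NetOutN)

theorem pt_rat (v : V) (m : ℕ) (z : Fin 3 → ℤ) : pt v m z ∈ Rat3 v :=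
  ⟨fun k => (z k : ℚ) / 2 ^ m, fun k => by simp [pt]⟩

theorem pt_rat' (v : V) (e : Idx × Fin 3) :
    pt v e.1.1 e.1.2 + (1 / 2 ^ e.1.1 : ℝ) • ev e.2 ∈ Rat3 v := by
  refine ⟨fun k => (e.1.2 k : ℚ) / 2 ^ e.1.1 + if k = e.2 then (1 / 2 ^ e.1.1 : ℚ) else 0,
    fun k => ?_⟩
  by_cases h : k = e.2
  · subst h
    simp [pt, ev]
    ring
  · simp [pt, ev, h]

theorem ev_smul_ne (e : Idx × Fin 3) : (1 / 2 ^ e.1.1 : ℝ) • (ev e.2 : V) ≠ 0 := by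
  intro h
  have := congrFun h e.2
  simp [ev] at this

theorem gam_mem {v : V} {e : Idx × Fin 3} {t : ℝ} (ht : t ∈ Icc (0:ℝ) 1) :
    gam v e t ∈ edge v e := by
  rw [edge, segment_eq_image']
  exact ⟨t, ht, by simp [gam]⟩

theorem exists_gam {v : V} {e : Idx × Fin 3} {x : V} (hx : x ∈ edge v e) :
    ∃ t ∈ Icc (0:ℝ) 1, gam v e t = x := by
  rw [edge, segment_eq_image'] at hx
  obtain ⟨t, ht, rfl⟩ := hx
  exact ⟨t, ht, by simp [gam]⟩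

/-- NET on the edges `N` -/
theorem exists_net (hN : NetOutN) {p : ℝ} (hp1 : 1 ≤ p) (hp2 : p ≤ 2) {Ω Λ : Set V} {f : V → V}
    {F : V → Mat} {v : V} {N : Set (Idx × Fin 3)} (hΩ : IsOpen Ω) (hc : IsConnected Ω)
    (hΛ : IsOpen Λ) (hf : IsHomeo Ω Λ f) (hR : RatGood v Ω f F)
    (hsub : ∀ e ∈ N, edge v e ⊆ Ω)
    (hfin : ∀ K ⊆ Ω, IsCompact K → {e | e ∈ N ∧ (edge v e ∩ K).Nonempty}.Finite)
    (hE : ∀ e ∈ N, eInt v e (fun x => ENNReal.ofReal (‖cl (F x) (ev e.2)‖ ^ p)) ≠ ⊤)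
    {ε : Idx × Fin 3 → ℝ} (hε : ∀ e, 0 < ε e) {σ : V → ℝ} (hσ : ContinuousOn σ Ω)
    (hσ0 : ∀ x ∈ Ω, 0 < σ x) :
    ∃ h : ConHomeo Ω Λ, (∀ x ∈ Ω, ‖h.toFun x - f x‖ ≤ σ x) ∧ ∀ e ∈ N,
      (∀ x ∈ edge v e, ‖h.toFun x - f x‖ ≤ ε e) ∧
      IntervalIntegrable (De v F e) volume 0 1 ∧
      ∫⁻ t in Icc (0:ℝ) 1, ENNReal.ofReal
        (‖deriv (fun s => h.toFun (gam v e s)) t - De v F e t‖ ^ p) ≤ ENNReal.ofReal (ε e) := by
  have hp0 : 0 ≤ p := by linarith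
  have hg : ∀ e ∈ N, GoodSeg f (fun x => cl (F x)) (pt v e.1.1 e.1.2)
      ((1 / 2 ^ e.1.1 : ℝ) • ev e.2) := by
    intro e he
    have h1 := Vale.Agent.P073.PK.RatGood.goodSeg hR (pt_rat v e.1.1 e.1.2) (pt_rat' v e) (hsub e he)
    rwa [add_sub_cancel_left] at h1
  obtain ⟨h, h1, h2⟩ := P073.H894.netOutFamN hN p Ω Λ f v N (Set.to_countable _)
    (fun e => pt v e.1.1.1 e.1.1.2)
    (fun e => pt v e.1.1.1 e.1.1.2 + (1 / 2 ^ e.1.1.1 : ℝ) • ev e.1.2)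
    (fun e => De v F e.1) hp1 hp2 hΩ hc hΛ hf (Vale.Agent.P073.PK.RatGood.ratAC hR)
    (fun e => ⟨pt_rat _ _ _, pt_rat' _ _, fun h => ev_smul_ne e.1 (by
      have := congrArg (fun x => x - pt v e.1.1.1 e.1.1.2) h
      simp only [sub_self, add_sub_cancel_left] at this
      exact this.symm)⟩)
    (fun e => hsub e.1 e.2)
    (fun K hK hKc => by
      have h3 := hfin K hK hKc
      refine (h3.preimage (f := ((↑) : N → Idx × Fin 3)) Subtype.val_injective.injOn).subset ?_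
      intro e he
      exact ⟨e.2, he⟩)
    (fun e => (hg e.1 e.2).1)
    (fun e t ht => by
      have := (hg e.1 e.2).2 t ht
      rw [add_sub_cancel_left]
      exact this)
    (fun e => Vale.Agent.P073.PK.intervalIntegrable_euc hp1 (hg e.1 e.2) (hE e.1 e.2))
    (fun e => ε e.1) (fun e => hε e.1) σ hσ hσ0
  refine ⟨h, h1, fun e he => ?_⟩
  obtain ⟨h3, -, h4⟩ := h2 ⟨e, he⟩
  simp only [add_sub_cancel_left] at h3 h4
  refine ⟨fun x hx => ?_, (hg e he).1, lint_euc hp0 h4⟩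
  obtain ⟨t, ht, rfl⟩ := exists_gam hx
  exact h3 t ht

end P073.GS
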