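import Vale.Agent.P073.LOC.Sec2

/-!
# P073, block SEC2, `SpecGaugeSec2`: the geometric parts

All statements are about the partition `part v n m` of `Q1` (Whitney cubes outside of the core,
generation `m` in the core), the squares `sqT v n m n₀` and the edges `NetE v n m n₀`.
-/

open Set Metric Topology MeasureTheory Filter

namespace P073.GS

open Vale.Agent.P073.St (V)
open Vale.Agent.P073.SQ (ev)
open Vale.Agent.P073.AB
open Vale.Agent.P073.LOC (Q1 core mid part IsMid FineE NetE sqT plq)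
open P073.GB73 (Prot)
open P073.Net (dyc dyo)
open P073.Plate (FaceT TCx pbox prel)

/-- the numerical hypotheses -/
structure Num (v : V) (n m n₀ : ℕ) : Prop where
  org : ∀ i, 0 ≤ v i ∧ v i < 1 / 2 ^ n
  hn : 3 ≤ n
  hm : n + 2 ≤ m
  hn₀ : m ≤ n₀

/-- **(G1)** `part` is a partition of `Q1` -/
def SpecPartSec : Prop :=
  ∀ (v : V) (n m n₀ : ℕ), Num v n m n₀ → Part Q1 v (part v n m)

/-- **(G2)** the squares `sqT` tile the minimal squares of the partition -/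
def SpecFaceSec : Prop :=
  ∀ (v : V) (n m n₀ : ℕ), Num v n m n₀ → FaceT v (part v n m) (sqT v n m n₀)

/-- **(G3a)** the edges of the net are in `Q1`; local finiteness -/
def SpecEdgeA : Prop :=
  ∀ (v : V) (n m n₀ : ℕ), Num v n m n₀ →
    (∀ e, NetE v n m n₀ e → edge v e ⊆ Q1 ∧ n ≤ e.1.1) ∧
    (∀ K ⊆ Q1, IsCompact K → {e | NetE v n m n₀ e ∧ (edge v e ∩ K).Nonempty}.Finite) ∧
    (∀ g : ℕ, {e : Idx × Fin 3 | e.1.1 = g ∧ edge v e ⊆ core v n}.Finite) ∧
    IsCompact (core v n) ∧ core v n ⊆ Q1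

/-- **(G3b)** the edges of the net and the edges of the squares `sqT` -/
def SpecEdgeB : Prop :=
  ∀ (v : V) (n m n₀ : ℕ), Num v n m n₀ →
    (∀ e, ∀ s ∈ sqT v n m n₀, EdgeOfSq e s → NetE v n m n₀ e) ∧
    ∀ e, NetE v n m n₀ e → ∀ x ∈ edge v e, ∃ e', ∃ s ∈ sqT v n m n₀, EdgeOfSq e' s ∧
      edge v e' ⊆ edge v e ∧ x ∈ edge v e'

/-- **(G4)** unions of cubes of the partition are protected (model: `GBM/Prot527.lean`) -/
def SpecProtT : Prop :=
  ∀ (Ω : Set V) (v : V) (I : Set Idx) (T : Set (Idx × Fin 3)), IsOpen Ω → Part Ω v I →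
    FaceT v I T → ∀ D : TCx Ω v I T, ∀ I' ⊆ I, Prot D.K (⋃ q ∈ I', dyc v q.1 q.2)

/-- **(G5)** a plate: a square of generation `n₂` in a middle plane, well inside a square of
generation `m` -/
def SpecLone : Prop :=
  ∀ (v : V) (n m n₀ n₂ : ℕ) (z w : Fin 3 → ℤ), Num v n m n₀ → m ≤ n₂ → n₂ ≤ n₀ →
    squ v (plq n₂ z) ⊆ core v n → IsMid v n (pt v n₂ z 2) →
    pbox v (plq n₂ z) (-(1 / 2 ^ n₂)) 0 ⊆ squ v ((m, w), 2) →
    MinSq v (part v n m) ((m, w), 2) ∧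
    (∀ s' : Idx × Fin 3, s'.1.1 = n₀ → s'.2 = 2 → (squ v s' ∩ squ v (plq n₂ z)).Nonempty →
      s' ∈ sqT v n m n₀) ∧
    ∀ z', squ v (plq n₂ z') ⊆ core v n → IsMid v n (pt v n₂ z' 2) → z ≠ z' →
      Disjoint (squ v (plq n₂ z)) (prel v (plq n₂ z') 0)

end P073.GS
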