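import Vale.Agent.P073.GS580.Spec
import Vale.Agent.P073.GS580.NetE

/-!
# P073, block SEC2, `SpecGaugeSec2`: the analytic parts
-/

open Set Metric Topology MeasureTheory Filter
open scoped ENNReal

namespace P073.GS

open Vale.Agent.P073.St (V Mat IsHomeo)
open Vale.Agent.P073.SQ (ev)
open Vale.Agent.P073.AB
open Vale.Agent.P073.LOC (Q1 core part NetE sqT plq Choice2)
open P073.Gauge (gam)
open P073.Plate (PlateHyp pbox)

/-- `h` approximates `f` on the edges `N`, with accuracy `ε` -/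
structure NetOK (p : ℝ) (v : V) (f : V → V) (F : V → Mat) (N : Set (Idx × Fin 3))
    (ε : Idx × Fin 3 → ℝ) (h : V → V) : Prop where
  close : ∀ e ∈ N, ∀ x ∈ edge v e, ‖h x - f x‖ ≤ ε e
  int : ∀ e ∈ N, IntervalIntegrable (De v F e) volume 0 1
  en : ∀ e ∈ N, ∫⁻ t in Icc (0:ℝ) 1, ENNReal.ofReal
    (‖deriv (fun s => h (gam v e s)) t - De v F e t‖ ^ p) ≤ ENNReal.ofReal (ε e)

/-- **(A2)** the hypotheses of the plates, owner 407: `own` from `Choice2.own` (see `own_energy` in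
`GS580/En.lean`), `foreign` from `Choice2.foreign` with a small tolerance, `lone` and `fine` from
`SpecLone` -/
def SpecPlateHyp : Prop :=
  ∀ (p θ M κ : ℝ) (k₁ k₀ n m : ℕ) (ε C : ℝ) (L : V →L[ℝ] V) (Λ : Set V) (f : V → V)
    (F : V → Mat), 1 ≤ p → 0 < θ → 0 < M → 0 < κ → 3 ≤ n → n + 2 ≤ m → IsHomeo Q1 Λ f →
    ∀ c : Choice2 p ε θ M (κ / 2 ^ (p + 1)) C k₁ k₀ n m L Λ f F,
    ∃ τ : Idx × Fin 3 → ℝ, (∀ e, 0 < τ e) ∧ ∀ h : V → V,
      NetOK p c.v f F {e | NetE c.v n m c.n₀ e} τ h → ∀ z ∈ c.J,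
      PlateHyp p θ M κ k₁ k₀ Λ c.v (part c.v n m) (sqT c.v n m c.n₀) (plq c.n₂ z) (c.A z) (c.B z) h

end P073.GS
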