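import Vale.Agent.P073.GS580.Spec2
import Vale.Agent.P073.GS580.G3a_907
import Vale.Agent.P073.H107.Plates

/-!
# P073, block SEC2, `SpecGaugeSec2`: protected set, boundary values, flat pieces
-/

open Set Metric Topology MeasureTheory Filter
open scoped ENNReal

namespace P073.GS

open Vale.Agent.P073.St (V Mat IsHomeo IsBoundedDomain euc)
open Vale.Agent.P073.SQ (ev)
open Vale.Agent.P073.AB
open Vale.Agent.P073.LOC (Q1 core part NetE sqT plq Choice2 BdClose)
open P073.Net (dyc dyo)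
open P073.Plate (PlateHyp pbox)
open P073.GS.G3a907

/-! ## the unit cube -/

theorem isBoundedDomain_Q1 : IsBoundedDomain Q1 := by
  refine ⟨isOpen_Q1, ⟨nonempty_Q1, ?_⟩, 2, fun x hx => ?_⟩
  · have : Q1 = Set.pi univ fun _ : Fin 3 => Ioo (0:ℝ) 1 := by
      ext y; exact ⟨fun h k _ => h k, fun h k => h k (mem_univ k)⟩
    rw [this]
    exact isPreconnected_univ_pi fun _ => isPreconnected_Ioo
  · rw [euc, Real.sqrt_le_left (by norm_num)]
    have h : ∀ i, x i ^ 2 ≤ 1 := fun i => by nlinarith [(hx i).1, (hx i).2]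
    rw [Fin.sum_univ_three]
    linarith [h 0, h 1, h 2]

theorem isCompact_far {η : ℝ} (hη : 0 < η) : IsCompact {x : V | η ≤ infDist x Q1ᶜ} ∧
    {x : V | η ≤ infDist x Q1ᶜ} ⊆ Q1 := by
  have hsub : {x : V | η ≤ infDist x Q1ᶜ} ⊆ Q1 := by
    intro x hx
    by_contra h
    have h1 : infDist x Q1ᶜ = 0 := infDist_zero_of_mem h
    have h2 : η ≤ infDist x Q1ᶜ := hx
    linarith
  exact ⟨isCompact_of_isClosed_isBounded
    (isClosed_le continuous_const (continuous_infDist_pt _)) (isBounded_Q1.subset hsub), hsub⟩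

theorem infDist_pos {x : V} (hx : x ∈ Q1) : 0 < infDist x Q1ᶜ := by
  have h1 : (Q1ᶜ : Set V).Nonempty := by
    refine ⟨0, fun h => ?_⟩
    have := (h 0).1
    simp at this
  exact (isOpen_Q1.isClosed_compl.notMem_iff_infDist_pos h1).1 (fun h => h hx)

/-- boundary values -/
theorem bdClose_of {f G : V → V} {K : Set V} (hK : K ⊆ Q1) (hKc : IsCompact K)
    (h : ∀ x ∈ Q1 \ K, ‖G x - f x‖ ≤ 2 * infDist x Q1ᶜ) : BdClose Q1 f G := by
  intro δ hδ
  obtain ⟨h1, h2⟩ := isCompact_far (half_pos hδ)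
  refine ⟨K ∪ {x : V | δ / 2 ≤ infDist x Q1ᶜ}, union_subset hK h2, hKc.union h1, ?_⟩
  rintro x ⟨hx, hx'⟩
  rw [mem_union, not_or] at hx'
  have h3 := h x ⟨hx, hx'.1⟩
  have h4 : infDist x Q1ᶜ < δ / 2 := not_le.1 hx'.2
  linarith

/-! ## the protected set -/

/-- the cubes of the partition `I` which do not meet `K` -/
def awayI (v : V) (I : Set Idx) (K : Set V) : Set Idx :=
  {q | q ∈ I ∧ Disjoint (dyc v q.1 q.2) K}

theorem isCompact_dyc (v : V) (m : ℕ) (z : Fin 3 → ℤ) : IsCompact (dyc v m z) := by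
  have h : dyc v m z = Set.pi univ (fun k => Icc (v k + z k / 2 ^ m) (v k + (z k + 1) / 2 ^ m)) := by
    ext x; simp only [dyc, Set.mem_ofPred_eq, Set.mem_pi, mem_univ, forall_true_left, mem_Icc]
  rw [h]
  exact isCompact_univ_pi fun k => isCompact_Icc

theorem exists_compact {Ω : Set V} {v : V} {I : Set Idx} (hI : Part Ω v I) {K : Set V}
    (hK : K ⊆ Ω) (hKc : IsCompact K) : ∃ K' ⊆ Ω, IsCompact K' ∧
      ∀ x ∈ Ω \ K', x ∈ ⋃ q ∈ awayI v I K, dyc v q.1 q.2 := by
  have hfin := hI.fin K hK hKc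
  refine ⟨⋃ q ∈ {q | q ∈ I ∧ (dyc v q.1 q.2 ∩ K).Nonempty}, dyc v q.1 q.2, ?_, ?_, ?_⟩
  · exact iUnion₂_subset fun q hq => hI.sub q hq.1
  · exact hfin.isCompact_biUnion fun q _ => isCompact_dyc _ _ _
  · rintro x ⟨hx, hx'⟩
    obtain ⟨q, hq, hxq⟩ := hI.cover x hx
    refine mem_iUnion₂.2 ⟨q, ⟨hq, ?_⟩, hxq⟩
    rw [disjoint_iff_inter_eq_empty, ← not_nonempty_iff_eq_empty]
    intro hne
    exact hx' (mem_iUnion₂.2 ⟨q, ⟨hq, hne⟩, hxq⟩)

theorem away_notMem {v : V} {I : Set Idx} {K : Set V} {x : V}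
    (hx : x ∈ ⋃ q ∈ awayI v I K, dyc v q.1 q.2) : x ∉ K := by
  obtain ⟨q, hq, hxq⟩ := mem_iUnion₂.1 hx
  exact disjoint_left.1 hq.2 hxq

/-! ## the plates -/

theorem isCompact_pbox (v : V) (s : Idx × Fin 3) (δ τ : ℝ) : IsCompact (pbox v s δ τ) := by
  refine isCompact_of_isClosed_isBounded (P073.Plate.H107.isClosed_pbox v s δ τ) ?_
  refine (isCompact_univ_pi (s := fun k : Fin 3 =>
    Icc (min (v s.2 + s.1.2 s.2 / 2 ^ s.1.1 - τ) (v k + s.1.2 k / 2 ^ s.1.1 + δ))
      (max (v s.2 + s.1.2 s.2 / 2 ^ s.1.1 + τ) (v k + (s.1.2 k + 1) / 2 ^ s.1.1 - δ)))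
    fun k => isCompact_Icc).isBounded.subset ?_
  rintro x ⟨hx1, hx2⟩ k -
  rw [abs_le] at hx1
  by_cases hk : k = s.2
  · subst hk
    exact ⟨(min_le_left _ _).trans (by linarith [hx1.1]),
      le_trans (by linarith [hx1.2]) (le_max_left _ _)⟩
  · exact ⟨(min_le_right _ _).trans (hx2 k hk).1, (hx2 k hk).2.trans (le_max_right _ _)⟩

theorem continuous_aff {A : V → V} {B : V →L[ℝ] V} (aff : ∀ x y, A y - A x = B (y - x)) :
    Continuous A := by
  have h : A = fun y => B y + (A 0 - B 0) := by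
    funext y
    have := aff 0 y
    rw [map_sub] at this
    rw [← sub_eq_zero]
    calc A y - (B y + (A 0 - B 0)) = (A y - A 0) - (B y - B 0) := by abel
      _ = 0 := by rw [this, sub_self]
  rw [h]
  exact B.continuous.add_const _

/-! ## flat pieces -/

/-- the flat piece of a plate, as a set of points of the core -/
def flat (v : V) (n : ℕ) (s : Idx × Fin 3) (c δ : ℝ) : Set V :=
  {x | x ∈ core v n ∧ Function.update x 2 c ∈ pbox v s δ 0}

theorem isCompact_flat (v : V) (n : ℕ) (s : Idx × Fin 3) (c δ : ℝ) :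
    IsCompact (flat v n s c δ) := by
  have h1 : Continuous fun x : V => Function.update x 2 c := by fun_prop
  exact (isCompact_core v n).inter_right ((P073.Plate.H107.isClosed_pbox v s δ 0).preimage h1)

theorem convex_core (v : V) (n : ℕ) : Convex ℝ (core v n) := by
  have h : core v n = Set.pi univ
      (fun k => Icc (v k + 2 / 2 ^ n) (v k + (2 ^ n - 3) / 2 ^ n)) := by
    ext x; simp only [core, Set.mem_ofPred_eq, Set.mem_pi, mem_univ, forall_true_left, mem_Icc]
  rw [h]
  exact convex_pi fun k _ => convex_Icc _ _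

theorem convex_flat (v : V) (n : ℕ) (z : Fin 3 → ℤ) (g : ℕ) (δ : ℝ) :
    Convex ℝ (flat v n ((g, z), 2) (pt v g z 2) δ) := by
  have h : flat v n ((g, z), 2) (pt v g z 2) δ = core v n ∩ Set.pi univ
      (fun k => if k = 2 then univ else
        Icc (v k + z k / 2 ^ g + δ) (v k + (z k + 1) / 2 ^ g - δ)) := by
    ext x
    simp only [flat, pbox, Set.mem_ofPred_eq, mem_inter_iff, Set.mem_pi, mem_univ,
      forall_true_left]
    refine and_congr_right fun _ => ?_
    constructor
    · rintro ⟨-, h⟩ k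
      by_cases hk : k = 2
      · simp [hk]
      · rw [if_neg hk]
        have := h k hk
        rwa [Function.update_of_ne hk] at this
    · intro h
      refine ⟨by simp [pt], fun k hk => ?_⟩
      have := h k
      rw [if_neg hk] at this
      rwa [Function.update_of_ne hk]
  rw [h]
  refine (convex_core v n).inter (convex_pi fun k _ => ?_)
  split_ifs
  · exact convex_univ
  · exact convex_Icc _ _

/-- tangential derivative on a flat piece -/
theorem lineDeriv_upd {h A : V → V} {B : V →L[ℝ] V} {S Q : Set V} {c : ℝ}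
    (aff : ∀ x y, A y - A x = B (y - x)) (hS : ∀ x ∈ S, h x = A x)
    (hQ : ∀ x ∈ Q, Function.update x 2 c ∈ S) {x : V} (hx : x ∈ interior Q) {j : Fin 3}
    (hj : j ≠ 2) : lineDeriv ℝ h (Function.update x 2 c) (ev j) = B (ev j) := by
  set u : V := Function.update x 2 c with hu
  have h1 : ∀ᶠ t : ℝ in 𝓝 0, u + t • ev j ∈ S := by
    have h2 : Tendsto (fun t : ℝ => x + t • ev j) (𝓝 0) (𝓝 (x + (0:ℝ) • ev j)) := by
      apply Continuous.tendsto
      fun_prop
    rw [zero_smul, add_zero] at h2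
    filter_upwards [h2 (isOpen_interior.mem_nhds hx)] with t ht
    have h3 := hQ _ (interior_subset ht)
    have h4 : Function.update (x + t • ev j) 2 c = u + t • ev j := by
      funext k
      by_cases hk : k = 2
      · subst hk
        rw [Function.update_self, Pi.add_apply, Pi.smul_apply, hu, Function.update_self]
        simp [ev, Ne.symm hj]
      · rw [Function.update_of_ne hk, Pi.add_apply, Pi.add_apply, hu, Function.update_of_ne hk]
    rwa [h4] at h3
  have h6 : HasDerivAt (fun t : ℝ => h (u + t • ev j)) (B (ev j)) 0 := by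
    have h7 : HasDerivAt (fun t : ℝ => A u + t • B (ev j)) (B (ev j)) 0 := by
      have := ((hasDerivAt_id (0:ℝ)).smul_const (B (ev j))).const_add (A u)
      simpa using this
    apply h7.congr_of_eventuallyEq
    filter_upwards [h1] with t ht
    rw [hS _ ht]
    have h8 := aff u (u + t • ev j)
    rw [add_sub_cancel_left, map_smul] at h8
    rw [← h8]
    abel
  unfold lineDeriv
  exact h6.deriv

theorem lint_interior {s : Set V} (hs : Convex ℝ s) (H : V → ℝ≥0∞) :
    ∫⁻ x in s, H x ≤ ∫⁻ x in interior s, H x := by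
  have h0 : (volume : Measure V) (frontier s) = 0 := hs.addHaar_frontier volume
  have h1 : s ⊆ interior s ∪ frontier s := by
    intro x hx
    by_cases h : x ∈ interior s
    · exact Or.inl h
    · exact Or.inr ⟨subset_closure hx, h⟩
  calc ∫⁻ x in s, H x ≤ ∫⁻ x in interior s ∪ frontier s, H x := lintegral_mono_set h1
    _ ≤ (∫⁻ x in interior s, H x) + ∫⁻ x in frontier s, H x := lintegral_union_le _ _ _
    _ = ∫⁻ x in interior s, H x := by
      rw [Measure.restrict_eq_zero.2 h0, lintegral_zero_measure, add_zero]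

/-- **flat pieces** -/
theorem flat_energy {p η : ℝ} {h A G : V → V} {B : V →L[ℝ] V} {S Q : Set V} {c : ℝ}
    (hQc : Convex ℝ Q) (aff : ∀ x y, A y - A x = B (y - x)) (hS : ∀ x ∈ S, h x = A x)
    (hQ : ∀ x ∈ Q, Function.update x 2 c ∈ S) {j : Fin 3} (hj : j ≠ 2)
    (h1 : ∫⁻ x in Q, ENNReal.ofReal (‖fderiv ℝ G (Function.update x 2 c) (ev j) -
      lineDeriv ℝ h (Function.update x 2 c) (ev j)‖ ^ p) ≤ ENNReal.ofReal η) :
    ∫⁻ x in Q, ENNReal.ofReal (‖fderiv ℝ G (Function.update x 2 c) (ev j) -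
      B (ev j)‖ ^ p) ≤ ENNReal.ofReal η := by
  refine (lint_interior hQc _).trans (le_trans (le_of_eq ?_)
    ((lintegral_mono_set (interior_subset (s := Q))).trans h1))
  refine setLIntegral_congr_fun isOpen_interior.measurableSet fun x hx => ?_
  rw [lineDeriv_upd aff hS hQ hx hj]

end P073.GS
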